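import Vale.Agent.P291Y.L3
import Vale.Agent.P291Y.L4

/-!
# Semistable and stable points in the sense of geometric invariant theory, the quiver variety
-/

noncomputable section

namespace Vale.Agent.P291Y

/-- A linear action of the torus `(ℂ^*)^Φ` whose matrix coefficients are regular functions, that
is, Laurent polynomials. -/
def IsAlg (V : Type) [AddCommGroup V] [Module ℂ V] (Φ : Type) [Fintype Φ]
    (ρ : (Φ → ℂˣ) → V → V) : Prop :=
  (∀ f, IsLinearMap ℂ (ρ f)) ∧ (∀ x, ρ (fun _ => 1) x = x) ∧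
    (∀ f f' x, ρ (fun a => f a * f' a) x = ρ f (ρ f' x)) ∧
    ∀ (l : V →ₗ[ℂ] ℂ) (x : V), ∃ (s : Finset (Φ → ℤ)) (c : (Φ → ℤ) → ℂ),
      ∀ f, l (ρ f x) = ∑ χ ∈ s, c χ * ∏ a, (f a : ℂ) ^ χ a

namespace Dat

variable (D : Dat)

/-- `N ⊕ N^*` with the action of `G × F`. -/
def TT : SG D.nn := prod D.NN.gs D.ND

/-- The points of `N ⊕ N^*`. -/
abbrev Tp : Type := D.Nc × D.Nd

/-- `g z` -/
def mov (g : GG D.nn) (z : D.Tp) : D.Tp := D.TT.act g z

/-- `z` lies in `μ⁻¹(0)`. -/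
def InZ (z : D.Tp) : Prop := D.Mu z.1 z.2

/-- Polynomial functions on `N ⊕ N^*`: the algebra generated by the linear forms. -/
inductive IsPol : (D.Tp → ℂ) → Prop
  | cst (c : ℂ) : IsPol fun _ => c
  | fst (q : D.Nd) : IsPol fun z => D.ev q z.1
  | snd (y : D.Nc) : IsPol fun z => D.ev z.2 y
  | add (f f' : D.Tp → ℂ) : IsPol f → IsPol f' → IsPol fun z => f z + f' z
  | mul (f f' : D.Tp → ℂ) : IsPol f → IsPol f' → IsPol fun z => f z * f' z

/-- The character `ν(g) = ∏ det(g_i) ^ ν_i`. -/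
def chr (g : GG D.nn) : ℂ :=
  @Finset.prod _ _ _ (@Finset.univ _ D.qv.fV) fun i => mdet _ ℂ (D.ga g) i ^ D.nu i

/-- `f` restricts to a regular function on `μ⁻¹(0)` with `f (g z) = ν(g)^m f z` for `g` in `G`. -/
def SemiInv (m : ℕ) (f : D.Tp → ℂ) : Prop :=
  D.IsPol f ∧ ∀ g z, D.InG g → D.InZ z → f (D.mov g z) = D.chr g ^ m * f z

/-- The `ν`-semistable points of `μ⁻¹(0)`. -/
def GSS (z : D.Tp) : Prop := D.InZ z ∧ ∃ m f, 0 < m ∧ D.SemiInv m f ∧ f z ≠ 0

/-- `y` lies in the Zariski closure of the `G`-orbit of `z`. -/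
def Clos (z y : D.Tp) : Prop :=
  ∀ f, D.IsPol f → (∀ g, D.InG g → f (D.mov g z) = 0) → f y = 0

/-- The `ν`-stable points of `μ⁻¹(0)`: the stabilizer in `G` is finite, and there is a
semi-invariant `f` with `f z ≠ 0` such that all orbits in `μ⁻¹(0) ∩ {f ≠ 0}` are closed in it. -/
def GSt (z : D.Tp) : Prop :=
  D.InZ z ∧ {g | D.InG g ∧ D.mov g z = z}.Finite ∧ ∃ m f, 0 < m ∧ D.SemiInv m f ∧ f z ≠ 0 ∧
    ∀ y y', D.InZ y → D.InZ y' → f y ≠ 0 → f y' ≠ 0 → D.Clos y y' →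
      ∃ g, D.InG g ∧ D.mov g y = y'

/-- `G` acts freely on `S`. -/
def Free (S : D.Tp → Prop) : Prop := ∀ z g, S z → D.InG g → D.mov g z = z → g = gone _

/-- `ν` is regular: the semistable locus is the stable locus, and `G` acts freely on it. -/
def GReg : Prop := (∀ z, D.GSS z ↔ D.GSt z) ∧ D.Free D.GSt

variable (Z : SG D.nn)

/-- A `G × F`-space `Z` as a `G`-space. -/
def ZS : GS (Subtype D.InG) := res Subtype.val Z

/-- `Z / G` with the action of `F`. -/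
def XS : SG D.nF :=
  ⟨orb (D.ZS Z), fun f q => omk (D.ZS Z) (Z.act (ginr _ _ f) (Quot.out q))⟩

/-- `c` is the characteristic class `r` of the principal `G`-bundle `Z → Z / G`. -/
def KirS (r : CG D.p1) (c : CG (D.XS Z)) : Prop :=
  ∀ M, Coh (pull (X := Bo Z M) (Y := Bo (D.XS Z) M) (omap Z (EE _ M) (D.XS Z) (EE _ M)
    (fun z _ => omk (D.ZS Z) z) (resE _ Sum.inr M)) (c M)) (pull (bmap Z _ (fun _ => ()) M) (r M))

end Dat

end Vale.Agent.P291Y
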