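import Vale.Agent.P291G.Defs

/-!
# Algebraic representations of tori are sums of weight spaces
-/

set_option linter.all false

noncomputable section

namespace Vale.Agent.P291G

open Vale.Agent.P291Y Finset

variable {Φ : Type} [Fintype Φ]

/-- The character with exponents `χ`. -/
def ch (χ : Φ → ℤ) : (Φ → ℂˣ) →* ℂ where
  toFun f := ∏ a, (f a : ℂ) ^ χ a
  map_one' := by simp
  map_mul' f g := by simp [mul_zpow, prod_mul_distrib]

theorem ch_inj : Function.Injective (ch : (Φ → ℤ) → _) := fun χ χ' h => funext fun a => by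
  classical
  have e : ∀ χ : Φ → ℤ, ch χ (Pi.mulSingle a (Units.mk0 2 two_ne_zero)) = 2 ^ χ a := fun χ => by
    change ∏ b, _ = _
    rw [prod_eq_single a (fun b _ hb => by simp [Pi.mulSingle_eq_of_ne hb]) (by simp)]
    simp
  have h1 := e χ
  rw [h, e] at h1
  have h2 := congrArg norm h1
  simp only [norm_zpow, Complex.norm_ofNat] at h2
  exact ((zpow_right_inj₀ two_pos (by norm_num)).1 h2).symm

theorem coe_ch (χ : Φ → ℤ) (f : Φ → ℂˣ) : ((∏ a, f a ^ χ a : ℂˣ) : ℂ) = ch χ f := by
  simp [ch]

theorem alg_iff (V : Type) [AddCommGroup V] [Module ℂ V] [Module.Finite ℂ V] (Φ : Type)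
    [Fintype Φ] (ρ : (Φ → ℂˣ) → V → V) : IsAlg V Φ ρ ↔ IsTor V Φ ρ := by
  classical
  refine and_congr_right fun h1 => and_congr_right fun h2 => and_congr_right fun h3 =>
    ⟨fun h => eq_top_iff.2 fun x _ => ?_, fun h l x => ?_⟩
  · let b := Module.finBasis ℂ V
    choose s c hc using fun i => h (b.coord i) x
    let t := univ.biUnion s
    let y : (Φ → ℤ) → V := fun χ => ∑ i, (if χ ∈ s i then c i χ else 0) • b i
    have e : ∀ f, ρ f x = ∑ χ ∈ t, ch χ f • y χ := fun f => b.ext_elem fun i => by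
      have h4 : ∀ χ, b.repr (y χ) i = if χ ∈ s i then c i χ else 0 := fun χ =>
        congrFun (b.repr_sum_self _) i
      rw [← b.coord_apply, hc, map_sum, Finsupp.finset_sum_apply]
      simp only [map_smul, Finsupp.smul_apply, h4, smul_eq_mul, mul_ite, mul_zero]
      rw [sum_ite_mem, inter_eq_right.2 (subset_biUnion_of_mem s (mem_univ i))]
      exact sum_congr rfl fun χ _ => mul_comm _ _
    have li := linearIndependent_iff'.1
      ((linearIndependent_monoidHom (Φ → ℂˣ) ℂ).comp _ ch_inj) t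
    rw [← h2 x, e]
    refine Submodule.sum_mem _ fun χ hχ => Submodule.smul_mem _ _ (Submodule.subset_span
      ⟨χ, fun f' => b.ext_elem fun i => ?_⟩)
    rw [coe_ch]
    refine sub_eq_zero.1 (li (fun χ => b.repr (ρ f' (y χ)) i - b.repr (ch χ f' • y χ) i)
      (funext fun f => ?_) χ hχ)
    have h5 := h3 f' f x
    rw [e, e, ← (h1 f').mk'_apply, map_sum] at h5
    have h6 := congrArg (fun v => b.repr v i) h5
    have h7 : ∀ χ : Φ → ℤ, ch χ (fun a => f' a * f a) = ch χ f' * ch χ f := fun χ =>
      (ch χ).map_mul f' f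
    simp only [map_sum, map_smul, Finsupp.finset_sum_apply, Finsupp.smul_apply, smul_eq_mul,
      IsLinearMap.mk'_apply, h7] at h6
    simp only [Finset.sum_apply, Pi.smul_apply, Function.comp_apply, smul_eq_mul, map_smul,
      Finsupp.smul_apply, sub_mul, sum_sub_distrib, Pi.zero_apply]
    rw [sub_eq_zero]
    refine Eq.trans (sum_congr rfl fun χ _ => mul_comm _ _) (h6.symm.trans ?_)
    exact sum_congr rfl fun χ _ => by ring
  · have hx : x ∈ Submodule.span ℂ _ := h ▸ Submodule.mem_top
    suffices ∃ c : (Φ → ℤ) →₀ ℂ, ∀ f, l (ρ f x) = c.sum fun χ a => a * ch χ f from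
      let ⟨c, hc⟩ := this
      ⟨c.support, c, hc⟩
    induction hx using Submodule.span_induction with
    | mem y hy =>
      obtain ⟨χ, hχ⟩ := hy
      exact ⟨Finsupp.single χ (l y), fun f => by
        rw [hχ, coe_ch, Finsupp.sum_single_index (zero_mul _), map_smul, smul_eq_mul, mul_comm]⟩
    | zero => exact ⟨0, fun f => by rw [(h1 f).map_zero, map_zero, Finsupp.sum_zero_index]⟩
    | add x y _ _ hx hy =>
      obtain ⟨c, hc⟩ := hx
      obtain ⟨d, hd⟩ := hy
      exact ⟨c + d, fun f => by
        rw [(h1 f).map_add, map_add, hc, hd, Finsupp.sum_add_index' (fun _ => zero_mul _)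
          fun _ _ _ => add_mul _ _ _]⟩
    | smul a x _ hx =>
      obtain ⟨c, hc⟩ := hx
      exact ⟨a • c, fun f => by
        rw [(h1 f).map_smul, map_smul, hc, Finsupp.sum_smul_index' (fun _ => zero_mul _),
          smul_eq_mul, Finsupp.mul_sum]
        simp only [smul_eq_mul, mul_assoc]⟩

end Vale.Agent.P291G
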