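import Vale.Agent.P291G.G5
import Vale.Agent.P291G.G6
import Vale.Agent.P291Y.B6

/-!
# The Hikita isomorphism for the quiver variety defined by invariant theory
-/

set_option linter.all false

noncomputable section

namespace Vale.Agent.P291G

open Vale.Agent.P291Y Dat

variable (D : Dat) (Z : SG D.nn) (a : GG D.nF → P291Y.orb (D.ZS Z) → P291Y.orb (D.ZS Z))

/-- The orbit space with a given action. -/
def XA : SG D.nF := ⟨P291Y.orb (D.ZS Z), a⟩

/-- The Kirwan relation. -/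
def KirA (r : CG D.p1) (c : CG (XA D Z a)) : Prop :=
  ∀ M, Coh (pull (X := Bo Z M) (Y := Bo (XA D Z a) M) (omap Z (EE _ M) (XA D Z a) (EE _ M)
    (fun z _ => omk (D.ZS Z) z) (resE _ Sum.inr M)) (c M)) (pull (bmap Z _ (fun _ => ()) M) (r M))

/-- The conclusion. -/
def Concl : Prop :=
  (∀ f z, a f (omk (D.ZS Z) z) = omk (D.ZS Z) (Z.act (ginr _ _ f) z)) ∧
  ∃ (R H A : Type) (_ : CommRing R) (_ : CommRing H) (_ : CommRing A) (_ : Algebra ℂ R)
      (_ : Algebra ℂ H) (_ : Algebra ℂ A) (_ : Algebra R H) (_ : Algebra R A)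
      (cr : CG D.p1 → R) (cl : CG (XA D Z a) → H) (cls : ∀ p : D.Pa, AF p → A),
      IsCoh D.p1 R cr ∧ IsCoh (XA D Z a) H cl ∧ D.IsCoul A cls ∧
      (∀ k r, IsHG _ k r → ∃ c β, IsHG _ k c ∧ am R H (cr r) = cl c ∧ am R A (cr r) = cls _ β ∧
        (∀ c', IsHG _ k c' → (KirA D Z a r c' ↔ cl c' = cl c)) ∧
        ∀ β', An _ (-k) β' ∧ D.CapRel r β' ↔ β' = β) ∧
      GrIso R H A (D.JJ A cls) (fun k h => ∃ c, IsHG _ k c ∧ h = cl c)
        fun k a => ∃ p β, An p (-k) β ∧ a = cls p β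

theorem concl0 (hν : D.Regular) : Concl D D.Zst (D.XS D.Zst).act := by
  have e : (D.XS D.Zst).act = D.XX.act :=
    funext fun f => funext fun q => congrArg (D.XX.act f) (Quot.out_eq q)
  have : Concl D D.Zst D.XX.act := ⟨fun _ _ => rfl, final D hν⟩
  exact e ▸ this

theorem concl (hν : D.Regular) (S : D.Tp → Prop)
    (e : S = fun z => D.Mu z.1 z.2 ∧ Qv.St D.nu z.1 (D.ev z.2)) :
    ∃ (h : Inv D.TT S) (Z : SG D.nn), Z = sub D.TT S h ∧ Concl D Z (D.XS Z).act := by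
  subst e
  exact ⟨D.h2, D.Zst, rfl, concl0 D hν⟩

theorem concl_git (hν : D.GReg) :
    ∃ (h : Inv D.TT D.GSt) (Z : SG D.nn), Z = sub D.TT D.GSt h ∧ Concl D Z (D.XS Z).act :=
  concl D (regular_of hν) _ (funext fun z => propext (king_st z))

end Vale.Agent.P291G
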