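import Mathlib

/-!
# Valuation rings: Smith form, Abel summation, centres of valuations, descent to `ℂ`
-/

set_option linter.all false

namespace Vale.Agent.P291G

open Matrix Finset

section smith

variable {K : Type} [Field K] (O : ValuationSubring K) {n : Type} [Fintype n] [DecidableEq n]

/-- Equivalence of matrices under `GL(O) × GL(O)`. -/
def Eqv (M M' : Matrix n n K) : Prop :=
  ∃ u w : (Matrix n n O)ˣ, u.1.map O.subtype * M * w.1.map O.subtype = M'

variable {O}

theorem Eqv.rfl' (M : Matrix n n K) : Eqv O M M :=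
  ⟨1, 1, by simp [Matrix.map_one]⟩

theorem Eqv.trans {M M' M'' : Matrix n n K} (h : Eqv O M M') (h' : Eqv O M' M'') :
    Eqv O M M'' := by
  obtain ⟨u, w, rfl⟩ := h
  obtain ⟨u', w', rfl⟩ := h'
  exact ⟨u' * u, w * w', by simp only [Units.val_mul, Matrix.map_mul, Matrix.mul_assoc]⟩

theorem exists_unit (a b : n → K) (ha : ∀ i, a i ∈ O) (hb : ∀ i, b i ∈ O) (h : b ⬝ᵥ a = 0) :
    ∃ u : (Matrix n n O)ˣ, u.1.map O.subtype = 1 + vecMulVec a b := by
  let a' : n → O := fun i => ⟨a i, ha i⟩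
  let b' : n → O := fun i => ⟨b i, hb i⟩
  have h' : b' ⬝ᵥ a' = 0 := by
    apply Subtype.val_injective
    have := map_sum O.subtype (fun i => b' i * a' i) univ
    simpa [dotProduct, a', b'] using h
  have h2 : IsNilpotent (vecMulVec a' b') := ⟨2, by
    rw [pow_two, vecMulVec_mul_vecMulVec, h']; simp⟩
  obtain ⟨u, hu⟩ := h2.isUnit_one_add
  refine ⟨u, ?_⟩
  rw [hu]
  ext i j
  by_cases hij : i = j <;> simp [vecMulVec_apply, a', b', one_apply, hij]

theorem Eqv.elem (M : Matrix n n K) (a b c d : n → K) (ha : ∀ i, a i ∈ O) (hb : ∀ i, b i ∈ O)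
    (h : b ⬝ᵥ a = 0) (hc : ∀ i, c i ∈ O) (hd : ∀ i, d i ∈ O) (h' : d ⬝ᵥ c = 0) :
    Eqv O M ((1 + vecMulVec a b) * M * (1 + vecMulVec c d)) := by
  obtain ⟨u, hu⟩ := exists_unit a b ha hb h
  obtain ⟨w, hw⟩ := exists_unit c d hc hd h'
  exact ⟨u, w, by rw [hu, hw]⟩

/-- The rows and columns in `s` are cleared. -/
def Cl (s : Finset n) (M : Matrix n n K) : Prop := ∀ i ∈ s, ∀ j, j ≠ i → M i j = 0 ∧ M j i = 0

theorem single_mem (p i : n) : (Pi.single p (1 : K) : n → K) i ∈ O := by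
  by_cases h : i = p
  · subst h; simp [O.one_mem]
  · simp [h, O.zero_mem]

theorem step2 {s : Finset n} {M : Matrix n n K} (hM : Cl s M) {p : n} (hp : p ∉ s)
    (h1 : ∀ i, O.valuation (M i p) ≤ O.valuation (M p p))
    (h2 : ∀ i, O.valuation (M p i) ≤ O.valuation (M p p)) :
    ∃ M', Eqv O M M' ∧ Cl (insert p s) M' := by
  have key : ∀ x : K, O.valuation x ≤ O.valuation (M p p) →
      -x / M p p ∈ O ∧ x + -x / M p p * M p p = 0 := fun x hx => by
    by_cases h0 : M p p = 0
    · rw [h0, map_zero, le_zero_iff, Valuation.zero_iff] at hx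
      simp [hx, O.zero_mem]
    · refine ⟨(O.valuation_le_one_iff _).1 ?_, by field_simp; ring⟩
      rw [map_div₀, Valuation.map_neg]
      exact div_le_one_of_le₀ hx zero_le
  let c : n → K := fun i => if i = p then 0 else -M i p / M p p
  let d : n → K := fun i => if i = p then 0 else -M p i / M p p
  have hc : ∀ i, c i ∈ O := fun i => by
    by_cases h : i = p
    · simp [c, h, O.zero_mem]
    · simpa [c, h] using (key _ (h1 i)).1
  have hd : ∀ i, d i ∈ O := fun i => by
    by_cases h : i = p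
    · simp [d, h, O.zero_mem]
    · simpa [d, h] using (key _ (h2 i)).1
  refine ⟨_, Eqv.elem M c (Pi.single p 1) (Pi.single p 1) d hc (single_mem p) (by simp [c])
    (single_mem p) hd (by simp [d]), ?_⟩
  have e : ∀ i j, ((1 + vecMulVec c (Pi.single p 1)) * M * (1 + vecMulVec (Pi.single p 1) d)) i j =
      M i j + c i * M p j + (M i p + c i * M p p) * d j := fun i j => by
    simp [Matrix.add_mul, Matrix.mul_add, vecMulVec_mul, mul_vecMulVec, vecMulVec_apply,
      add_mulVec, vecMulVec_mulVec, Matrix.add_apply]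
  have e1 : ∀ i, i ≠ p → M i p + c i * M p p = 0 := fun i h => by
    simpa [c, h] using (key _ (h1 i)).2
  have e2 : ∀ i, i ≠ p → M p i + M p p * d i = 0 := fun i h => by
    simpa [d, h, mul_comm] using (key _ (h2 i)).2
  have e3 : c p = 0 := by simp [c]
  have e4 : d p = 0 := by simp [d]
  intro i hi j hj
  rw [e, e]
  rcases mem_insert.1 hi with rfl | hi
  · rw [e3, e4, e1 j hj]
    simpa using e2 j hj
  · have hip : i ≠ p := fun h => hp (h ▸ hi)
    have a1 := hM i hi p hip.symm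
    have a2 := hM i hi j hj
    have a3 : c i = 0 := by simp [c, a1.1]
    have a4 : d i = 0 := by simp [d, a1.2]
    simp [a1.1, a1.2, a2.1, a2.2, a3, a4]

theorem step {s : Finset n} {M : Matrix n n K} (hM : Cl s M) (hs : s ≠ univ) :
    ∃ p ∉ s, ∃ M', Eqv O M M' ∧ Cl (insert p s) M' := by
  have hne : (sᶜ ×ˢ sᶜ).Nonempty := by
    have := nonempty_iff_ne_empty.2 ((compl_eq_empty_iff s).not.2 hs)
    exact this.product this
  obtain ⟨⟨p, q⟩, hpq, hmax⟩ := exists_max_image _ (fun x : n × n => O.valuation (M x.1 x.2)) hne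
  have hp : p ∉ s := by simpa using (mem_product.1 hpq).1
  have hq : q ∉ s := by simpa using (mem_product.1 hpq).2
  have hm : ∀ i j, i ∉ s ∨ j ∉ s → O.valuation (M i j) ≤ O.valuation (M p q) := fun i j h => by
    by_cases hi : i ∈ s
    · have hj : j ∉ s := h.resolve_left (not_not.2 hi)
      rw [(hM i hi j fun h => hj (h ▸ hi)).1, map_zero]
      exact zero_le
    · by_cases hj : j ∈ s
      · rw [(hM j hj i fun h => hi (h ▸ hj)).2, map_zero]
        exact zero_le
      · exact hmax (i, j) (mem_product.2 ⟨mem_compl.2 hi, mem_compl.2 hj⟩)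
  refine ⟨p, hp, ?_⟩
  rcases (hm p p (Or.inl hp)).eq_or_lt with h | h
  · exact step2 hM hp (fun i => h ▸ hm i p (Or.inr hp)) fun i => h ▸ hm p i (Or.inl hp)
  · have hpq' : p ≠ q := by rintro rfl; exact lt_irrefl _ h
    have h0 := Eqv.elem (O := O) M 0 0 (Pi.single q 1) (Pi.single p 1) (fun _ => O.zero_mem)
      (fun _ => O.zero_mem) (by simp) (single_mem q) (single_mem p) (by simp [hpq'])
    have e : ∀ i j, ((1 + vecMulVec (0 : n → K) (0 : n → K)) * M *
        (1 + vecMulVec (Pi.single q 1 : n → K) (Pi.single p 1 : n → K)) : Matrix n n K) i j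
        = M i j + M i q * (Pi.single p 1 : n → K) j := fun i j => by
      simp [Matrix.mul_add, mul_vecMulVec, vecMulVec_apply]
    have e0 : O.valuation (M p p + M p q * (Pi.single p 1 : n → K) p) = O.valuation (M p q) := by
      rw [Pi.single_eq_same, mul_one, Valuation.map_add_eq_of_lt_right _ h]
    obtain ⟨M', a, b⟩ := step2 (O := O) (s := s) (p := p) (M := (1 + vecMulVec 0 0) * M *
        (1 + vecMulVec (Pi.single q 1) (Pi.single p 1))) (fun i hi j hj => by
        have hiq : q ≠ i := fun h => hq (h ▸ hi)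
        have hip : i ≠ p := fun h => hp (h ▸ hi)
        rw [e, e, (hM i hi j hj).1, (hM i hi j hj).2, (hM i hi q hiq).1, Pi.single_eq_of_ne hip]
        simp) hp (fun i => by
        rw [e, e, e0, Pi.single_eq_same, mul_one]
        exact Valuation.map_add_le _ (hm i p (Or.inr hp)) (hm i q (Or.inr hq))) (fun i => by
        rw [e, e, e0]
        refine Valuation.map_add_le _ (hm p i (Or.inl hp)) ?_
        rw [map_mul]
        exact mul_le_of_le_one_right' ((O.valuation_le_one_iff _).2 (single_mem p i)))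
    exact ⟨M', h0.trans a, b⟩

/-- Smith normal form over a valuation ring. -/
theorem smith (M : Matrix n n K) : ∃ a, Eqv O M (diagonal a) := by
  have : ∀ k ≤ Fintype.card n, ∃ s : Finset n, s.card = k ∧ ∃ M', Eqv O M M' ∧ Cl s M' := by
    intro k
    induction k with
    | zero => exact fun _ => ⟨∅, rfl, M, Eqv.rfl' M, fun i hi => absurd hi (notMem_empty i)⟩
    | succ k ih =>
      intro hk
      obtain ⟨s, hs, M', h1, h2⟩ := ih (by omega)
      obtain ⟨p, hp, M'', h3, h4⟩ := step (O := O) h2 (by rintro rfl; rw [card_univ] at hs; omega)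
      exact ⟨insert p s, by rw [card_insert_of_notMem hp, hs], M'', h1.trans h3, h4⟩
  obtain ⟨s, hs, M', h1, h2⟩ := this _ le_rfl
  rw [card_eq_iff_eq_univ] at hs
  refine ⟨fun i => M' i i, ?_⟩
  convert h1
  ext i j
  by_cases h : i = j
  · subst h; simp
  · rw [diagonal_apply_ne _ h, (h2 i (hs ▸ mem_univ i) j (Ne.symm h)).1]

end smith

section abel

variable {C Γ : Type} [LinearOrderedCommGroupWithZero Γ]

theorem abel1 (n : C → ℤ) : ∀ (m : ℕ) (s : Finset C) (γ : C → Γ), s.card ≤ m →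
    (∀ c ∈ s, 1 < γ c) → (∀ δ, 1 ≤ δ → ∑ c ∈ s with δ < γ c, n c ≤ 0) →
    ∏ c ∈ s, γ c ^ n c ≤ 1 ∧ (∑ c ∈ s, n c < 0 → ∏ c ∈ s, γ c ^ n c < 1) := by
  intro m
  induction m with
  | zero =>
    intro s γ hs _ _
    rw [Nat.le_zero, card_eq_zero] at hs
    simp [hs]
  | succ m ih =>
    intro s γ hs h1 h2
    rcases s.eq_empty_or_nonempty with rfl | hne
    · simp
    obtain ⟨c₀, hc₀, hmin⟩ := exists_min_image s γ hne
    have hμ := h1 c₀ hc₀
    have hμ0 : 0 < γ c₀ := zero_lt_one.trans hμ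
    have hcard : (s.filter fun c => γ c₀ < γ c).card ≤ m := by
      have : (s.filter fun c => γ c₀ < γ c).card < s.card :=
        card_lt_card (filter_ssubset.2 ⟨c₀, hc₀, lt_irrefl _⟩)
      omega
    have h3 := (ih (s.filter fun c => γ c₀ < γ c) (fun c => γ c / γ c₀) hcard
      (fun c hc => (one_lt_div₀ hμ0).2 (mem_filter.1 hc).2) fun δ hδ => by
        have h4 : γ c₀ ≤ δ * γ c₀ := le_mul_of_one_le_left' hδ
        convert h2 (δ * γ c₀) (hμ.le.trans h4) using 2
        ext c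
        simp only [mem_filter, lt_div_iff₀ hμ0]
        exact ⟨fun h => ⟨h.1.1, h.2⟩, fun h => ⟨⟨h.1, h4.trans_lt h.2⟩, h.2⟩⟩).1
    have h5 : ∏ c ∈ s, γ c ^ n c = γ c₀ ^ (∑ c ∈ s, n c) *
        ∏ c ∈ s with γ c₀ < γ c, (γ c / γ c₀) ^ n c := by
      rw [prod_filter_of_ne fun c hc h => lt_of_le_of_ne (hmin c hc) fun e => h (by
        rw [← e, div_self hμ0.ne', _root_.one_zpow])]
      have : ∀ t : Finset C, γ c₀ ^ (∑ c ∈ t, n c) = ∏ c ∈ t, γ c₀ ^ n c := fun t => by
        classical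
        induction t using Finset.induction_on with
        | empty => simp
        | insert a t ha ih => rw [sum_insert ha, prod_insert ha, zpow_add₀ hμ0.ne', ih]
      rw [this, ← prod_mul_distrib]
      exact prod_congr rfl fun c _ => by rw [← mul_zpow, mul_div_cancel₀ _ hμ0.ne']
    have h6 : ∑ c ∈ s, n c ≤ 0 := by
      have := h2 1 le_rfl
      rwa [filter_true_of_mem h1] at this
    rw [h5]
    exact ⟨mul_le_one' (zpow_le_one_of_nonpos₀ hμ.le h6) h3, fun h =>
      (mul_le_of_le_one_right' h3).trans_lt (zpow_lt_one_of_neg₀ hμ h)⟩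

theorem abel [Fintype C] (n : C → ℤ) (γ : C → Γ) (h0 : ∀ c, γ c ≠ 0)
    (hA : ∀ δ, 1 ≤ δ → ∑ c with δ < γ c, n c ≤ 0) (hB : ∀ δ, δ ≤ 1 → 0 ≤ ∑ c with γ c < δ, n c) :
    ∏ c, γ c ^ n c ≤ 1 ∧ (((∃ c, 1 < γ c) → ∑ c with 1 < γ c, n c < 0) →
      ((∃ c, γ c < 1) → 0 < ∑ c with γ c < 1, n c) → ∏ c, γ c ^ n c = 1 → ∀ c, γ c = 1) := by
  have hp : ∀ c, 0 < γ c := fun c => zero_lt_iff.2 (h0 c)
  have h1 := abel1 n _ (univ.filter fun c => 1 < γ c) γ le_rfl (fun c hc => (mem_filter.1 hc).2)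
    fun δ hδ => by
      convert hA δ hδ using 2
      ext c
      simp only [mem_filter, mem_univ, true_and]
      exact ⟨fun h => h.2, fun h => ⟨hδ.trans_lt h, h⟩⟩
  have h2 := abel1 (fun c => -n c) _ (univ.filter fun c => γ c < 1) (fun c => (γ c)⁻¹) le_rfl
    (fun c hc => (one_lt_inv₀ (hp c)).2 (mem_filter.1 hc).2) fun δ hδ => by
      have hδ0 : 0 < δ := zero_lt_one.trans_le hδ
      have h3 := hB δ⁻¹ (inv_le_one_of_one_le₀ hδ)
      rw [sum_neg_distrib, neg_nonpos]
      convert h3 using 2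
      ext c
      simp only [mem_filter, mem_univ, true_and, lt_inv_comm₀ hδ0 (hp c)]
      exact ⟨fun h => h.2, fun h => ⟨h.trans_le (inv_le_one_of_one_le₀ hδ), h⟩⟩
  simp only [_root_.inv_zpow', neg_neg, sum_neg_distrib, neg_lt_zero] at h2
  have h4 : ∏ c, γ c ^ n c = (∏ c with 1 < γ c, γ c ^ n c) * ∏ c with γ c < 1, γ c ^ n c := by
    rw [← prod_filter_mul_prod_filter_not univ fun c => 1 < γ c]
    congr 1
    symm
    refine prod_subset (fun c hc => ?_) fun c hc hc' => ?_
    · simpa using (mem_filter.1 hc).2.le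
    · have : γ c = 1 := le_antisymm (by simpa using hc) (by simpa using hc')
      rw [this, _root_.one_zpow]
  rw [h4]
  refine ⟨mul_le_one' h1.1 h2.1, fun a b e c => ?_⟩
  by_contra hc
  rcases lt_or_gt_of_ne hc with h | h
  · exact ((mul_le_of_le_one_left' h1.1).trans_lt (h2.2 (b ⟨c, h⟩))).ne e
  · exact ((mul_le_of_le_one_right' h2.1).trans_lt (h1.2 (a ⟨c, h⟩))).ne e

end abel

/-- A proper ideal over the kernel of `φ` is below the centre of a valuation. -/
theorem exists_val {P R : Type} [CommRing P] [CommRing R] (φ : P →+* R) (I : Ideal P)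
    (hI : I ≠ ⊤) (h : RingHom.ker φ ≤ I) :
    ∃ (K : Type) (_ : Field K) (π : R →+* K) (O : ValuationSubring K),
      (∀ p, π (φ p) ∈ O) ∧ ∀ p ∈ I, O.valuation (π (φ p)) < 1 := by
  obtain ⟨m, hm, hIm⟩ := I.exists_le_maximal hI
  obtain ⟨p₀, hp₀, hle⟩ := Ideal.exists_minimalPrimes_le (h.trans hIm)
  obtain ⟨p, hp, -, e⟩ := Ideal.exists_comap_eq_of_mem_minimalPrimes (I := ⊥) φ p₀ hp₀
  let π : R →+* FractionRing (R ⧸ p) := (algebraMap (R ⧸ p) _).comp (Ideal.Quotient.mk p)
  have hk : RingHom.ker (π.comp φ).rangeRestrict ≤ m := fun x hx => hle (by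
    rw [RingHom.ker_rangeRestrict, RingHom.mem_ker] at hx
    rw [← e, Ideal.mem_comap, ← Ideal.Quotient.eq_zero_iff_mem]
    exact (IsFractionRing.injective (R ⧸ p) (FractionRing (R ⧸ p))) (hx.trans (map_zero _).symm))
  have hs := (π.comp φ).rangeRestrict_surjective
  obtain ⟨O, h1, h2⟩ := Ideal.image_subset_nonunits_valuationSubring
    (m.map (π.comp φ).rangeRestrict) fun ht => hm.ne_top (by
      have := Ideal.comap_map_of_surjective _ hs m
      rw [ht, Ideal.comap_top, ← RingHom.ker_eq_comap_bot, sup_eq_left.2 hk] at this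
      exact this.symm)
  exact ⟨_, inferInstance, π, O, fun q => h1 ⟨q, rfl⟩, fun q hq =>
    O.mem_nonunits_iff.1 (h2 ⟨_, Ideal.mem_map_of_mem _ (hIm hq), rfl⟩)⟩

/-- Solutions of polynomial equations over an extension give complex solutions. -/
theorem descent {σ κ : Type} [Finite σ] [CommRing κ] [Nontrivial κ]
    (φ : MvPolynomial σ ℂ →+* κ) :
    ∃ y : σ → ℂ, ∀ p, φ p = 0 → MvPolynomial.eval y p = 0 := by
  obtain ⟨m, hm, h⟩ := (RingHom.ker φ).exists_le_maximal (RingHom.ker_ne_top φ)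
  obtain ⟨y, rfl⟩ := MvPolynomial.isMaximal_iff_eq_vanishingIdeal_singleton.1 hm
  exact ⟨y, fun p hp => MvPolynomial.mem_vanishingIdeal_singleton_iff y p |>.1 (h hp)⟩

end Vale.Agent.P291G
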