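import Vale.Agent.P291G.G1
import Vale.Agent.P291Z.KN3

/-!
# The Hilbert-Mumford criterion for points of `G` over a valued field
-/

set_option linter.all false

noncomputable section

namespace Vale.Agent.P291G

open Vale.Agent.P291.Hik Vale.Agent.P291Z Vale.Agent.P291Z.KN Matrix Finset

variable {I E : Type} {Q : QData I E} {k k' : Type} [CommRing k] [CommRing k']

/-- Families of endomorphisms over `k`. -/
abbrev EK (Q : QData I E) (k : Type) : Type := ∀ i, Matrix (Fin (Q.v i)) (Fin (Q.v i)) k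

/-- The action over `k`. -/
def actK (g h : EK Q k) (z : Q.Pt k) : Q.Pt k where
  x e := g (Q.t e) * z.x e * h (Q.s e)
  y e := g (Q.s e) * z.y e * h (Q.t e)
  j i := z.j i * h i
  i i := g i * z.i i

/-- The coordinates over `k`. -/
def valK (z : Q.Pt k) : Ent Q → k
  | .inl (.inl a) => z.x a.1 a.2.1 a.2.2
  | .inl (.inr a) => z.y a.1 a.2.1 a.2.2
  | .inr (.inl a) => z.j a.1 a.2.1 a.2.2
  | .inr (.inr a) => z.i a.1 a.2.1 a.2.2

/-- The point with given coordinates. -/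
def unvalK (a : Ent Q → k) : Q.Pt k where
  x e := Matrix.of fun p r => a (.inl (.inl ⟨e, p, r⟩))
  y e := Matrix.of fun p r => a (.inl (.inr ⟨e, p, r⟩))
  j i := Matrix.of fun p r => a (.inr (.inl ⟨i, p, r⟩))
  i i := Matrix.of fun p r => a (.inr (.inr ⟨i, p, r⟩))

/-- Change of rings for points. -/
def mp (φ : k →+* k') (z : Q.Pt k) : Q.Pt k' :=
  ⟨fun e => (z.x e).map φ, fun e => (z.y e).map φ, fun e => (z.j e).map φ, fun e => (z.i e).map φ⟩

/-- Change of rings for endomorphisms. -/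
def me (φ : k →+* k') (g : EK Q k) : EK Q k' := fun i => (g i).map φ

theorem valK_eq (z : Q.Pt ℂ) : valK z = val z := by
  funext ε; rcases ε with (a | a) | (a | a) <;> rfl

theorem actK_eq (g h : End Q) (z : Q.Pt ℂ) : actK g h z = act g h z := rfl

theorem valK_unvalK (a : Ent Q → k) : valK (unvalK a) = a := by
  funext ε; rcases ε with (a | a) | (a | a) <;> rfl

theorem valK_inj {z z' : Q.Pt k} (h : ∀ ε, valK z ε = valK z' ε) : z = z' := by
  cases z; cases z'
  congr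
  · funext e p r; exact h (.inl (.inl ⟨e, p, r⟩))
  · funext e p r; exact h (.inl (.inr ⟨e, p, r⟩))
  · funext e p r; exact h (.inr (.inl ⟨e, p, r⟩))
  · funext e p r; exact h (.inr (.inr ⟨e, p, r⟩))

theorem valK_mp (φ : k →+* k') (z : Q.Pt k) (ε : Ent Q) : valK (mp φ z) ε = φ (valK z ε) := by
  rcases ε with (a | a) | (a | a) <;> rfl

theorem mp_actK (φ : k →+* k') (g h : EK Q k) (z : Q.Pt k) :
    mp φ (actK g h z) = actK (me φ g) (me φ h) (mp φ z) := by
  simp only [mp, actK, me, Matrix.map_mul]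

theorem mp_mp {k'' : Type} [CommRing k''] (φ : k →+* k') (ψ : k' →+* k'') (z : Q.Pt k) :
    mp ψ (mp φ z) = mp (ψ.comp φ) z := rfl

theorem mp_id {φ : k →+* k} (h : ∀ a, φ a = a) (z : Q.Pt k) : mp φ z = z :=
  valK_inj fun ε => by rw [valK_mp, h]

theorem actK_actK (g h g' h' : EK Q k) (z : Q.Pt k) :
    actK g h (actK g' h' z) = actK (g * g') (h' * h) z := by
  simp only [actK, Pi.mul_apply, Matrix.mul_assoc]

theorem me_mul (φ : k →+* k') (g h : EK Q k) : me φ (g * h) = me φ g * me φ h :=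
  funext fun i => Matrix.map_mul

theorem me_one (φ : k →+* k') : me φ (1 : EK Q k) = 1 :=
  funext fun i => Matrix.map_one _ φ.map_zero φ.map_one

/-- Diagonal matrices. -/
def dgK (a : Q.Col → k) : EK Q k := fun i => diagonal fun r => a ⟨i, r⟩

/-- The factor by which a diagonal element acts on a coordinate. -/
def wl {M : Type} [Mul M] (a b : Q.Col → M) : Ent Q → M
  | .inl (.inl e) => a ⟨Q.t e.1, e.2.1⟩ * b ⟨Q.s e.1, e.2.2⟩
  | .inl (.inr e) => a ⟨Q.s e.1, e.2.1⟩ * b ⟨Q.t e.1, e.2.2⟩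
  | .inr (.inl e) => b ⟨e.1, e.2.2⟩
  | .inr (.inr e) => a ⟨e.1, e.2.1⟩

theorem valK_dg (a b : Q.Col → k) (z : Q.Pt k) (ε : Ent Q) :
    valK (actK (dgK a) (dgK b) z) ε = wl a b ε * valK z ε := by
  rcases ε with (e | e) | (e | e) <;> simp [valK, actK, dgK, wl] <;> ring

theorem map_wl {M M' F : Type} [Mul M] [Mul M'] [FunLike F M M'] [MulHomClass F M M'] (f : F)
    (a b : Q.Col → M) (ε : Ent Q) : f (wl a b ε) = wl (fun c => f (a c)) (fun c => f (b c)) ε := by
  rcases ε with (e | e) | (e | e) <;> simp [wl]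

/-- Descent of a point of `G` from an extension of `ℂ`. -/
theorem descG [Finite I] {κ : Type} [CommRing κ] [Nontrivial κ] (c : ℂ →+* κ) (g h : EK Q κ)
    (hg : g * h = 1) (z : Q.Pt ℂ) :
    ∃ u u' : End Q, u * u' = 1 ∧ ∀ ε (b : ℂ), valK (actK g h (mp c z)) ε = c b →
      val (act u u' z) ε = b := by
  let σ := Bool × Σ i, Fin (Q.v i) × Fin (Q.v i)
  let x : σ → κ := fun s => (if s.1 then g else h) s.2.1 s.2.2.1 s.2.2.2
  let φ : MvPolynomial σ ℂ →+* κ := MvPolynomial.eval₂Hom c x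
  let X : Bool → EK Q (MvPolynomial σ ℂ) := fun b i => of fun p r => MvPolynomial.X (b, ⟨i, p, r⟩)
  obtain ⟨y, hy⟩ := descent φ
  have e1 : me φ (X true) = g := by funext i p r; simp [me, φ, X, x]
  have e2 : me φ (X false) = h := by funext i p r; simp [me, φ, X, x]
  have e3 : ∀ a b, φ a = φ b → MvPolynomial.eval y a = MvPolynomial.eval y b := fun a b e =>
    sub_eq_zero.1 ((map_sub _ _ _).symm.trans (hy _ (by rw [map_sub, e, sub_self])))
  refine ⟨me (MvPolynomial.eval y) (X true), me (MvPolynomial.eval y) (X false), ?_,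
    fun ε b hb => ?_⟩
  · rw [← me_mul, ← me_one (MvPolynomial.eval y)]
    have : me φ (X true * X false) = me φ 1 := by rw [me_mul, e1, e2, hg, me_one]
    funext i p r
    exact e3 _ _ (congrFun (congrFun (congrFun this i) p) r)
  · have := e3 (valK (actK (X true) (X false) (mp MvPolynomial.C z)) ε) (MvPolynomial.C b) (by
      rw [← valK_mp, mp_actK, e1, e2, mp_mp, MvPolynomial.eval₂Hom_comp_C, hb,
        MvPolynomial.eval₂Hom_C])
    rwa [← valK_mp, mp_actK, mp_mp, mp_id (by simp), MvPolynomial.eval_C, valK_eq] at this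

variable {K : Type} [Field K] {O : ValuationSubring K}

theorem exists_mp {z : Q.Pt K} (h : ∀ ε, valK z ε ∈ O) : ∃ z' : Q.Pt O, mp O.subtype z' = z :=
  ⟨unvalK fun ε => ⟨_, h ε⟩, valK_inj fun ε => by rw [valK_mp, valK_unvalK]; rfl⟩

theorem v_det {n : Type} [Fintype n] [DecidableEq n] (u : (Matrix n n O)ˣ) :
    O.valuation (u.1.map O.subtype).det = 1 := by
  have : (u.1.map O.subtype).det = O.subtype u.1.det := (O.subtype.map_det u.1).symm
  rw [this]
  exact (O.valuation_eq_one_iff _).1 ((isUnit_iff_isUnit_det _).1 u.isUnit)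

theorem hm [Finite I] (c : ℂ →+* O) (z : Q.Pt ℂ) (g h : EK Q K) (hg : g * h = 1)
    (hz : ∀ ε, valK (actK g h (mp (O.subtype.comp c) z)) ε ∈ O) :
    ∃ (u u' : End Q) (γ : Q.Col → O.ValueGroup), u * u' = 1 ∧ (∀ a, γ a ≠ 0) ∧
      (∀ ε, val (act u u' z) ε ≠ 0 → wl γ (fun a => (γ a)⁻¹) ε ≤ 1) ∧
      (∀ i, O.valuation (g i).det = ∏ r, γ ⟨i, r⟩) ∧
      ((∀ a, γ a = 1) → ∃ g' h' : EK Q O, me O.subtype g' = g ∧ me O.subtype h' = h) := by
  choose a u w e using fun i => smith (O := O) (g i)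
  let A : Q.Col → K := fun s => a s.1 s.2
  let U : EK Q O := fun i => (u i).1
  let U' : EK Q O := fun i => (u i)⁻¹.1
  let W : EK Q O := fun i => (w i).1
  let W' : EK Q O := fun i => (w i)⁻¹.1
  have hU : U' * U = 1 := funext fun i => (u i).inv_mul
  have hU' : U * U' = 1 := funext fun i => (u i).mul_inv
  have hW : W * W' = 1 := funext fun i => (w i).mul_inv
  have hW' : W' * W = 1 := funext fun i => (w i).inv_mul
  have e0 : me O.subtype U * g * me O.subtype W = dgK A := funext e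
  have hd : ∀ i, O.valuation (g i).det = ∏ r, O.valuation (A ⟨i, r⟩) := fun i => by
    have := congrArg (fun M => O.valuation (det M)) (e i)
    simpa only [det_mul, map_mul, v_det, one_mul, mul_one, det_diagonal, map_prod] using this
  have hA : ∀ s, A s ≠ 0 := fun ⟨i, r⟩ h0 => by
    have h1 : (g i).det * (h i).det = 1 := by
      rw [← det_mul, show g i * h i = 1 from congrFun hg i, det_one]
    have h2 := hd i
    rw [prod_eq_zero (mem_univ r) (by rw [h0, map_zero]), Valuation.zero_iff] at h2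
    rw [h2, zero_mul] at h1
    exact zero_ne_one h1
  have hAA : dgK A * dgK (fun s => (A s)⁻¹) = 1 := funext fun i => by
    simp [dgK, hA]
  have e1 : me O.subtype U * g = dgK A * me O.subtype W' := by
    rw [← e0, mul_assoc, ← me_mul, hW, me_one, mul_one]
  have e2 : h * me O.subtype U' = me O.subtype W * dgK fun s => (A s)⁻¹ := by
    have h1 : h * me O.subtype U' * (me O.subtype U * g) = 1 := by
      rw [mul_assoc, ← mul_assoc _ _ g, ← me_mul, hU, me_one, one_mul]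
      exact funext fun i => mul_eq_one_comm.1 (congrFun hg i)
    calc _ = h * me O.subtype U' * (me O.subtype U * g * (me O.subtype W *
          dgK fun s => (A s)⁻¹)) := by rw [← mul_assoc _ (me _ W), e0, hAA, mul_one]
      _ = _ := by rw [← mul_assoc, h1, one_mul]
  obtain ⟨z₁, h₁⟩ := exists_mp hz
  have e3 : mp O.subtype (actK U U' z₁) =
      actK (dgK A) (dgK fun s => (A s)⁻¹) (mp O.subtype (actK W' W (mp c z))) := by
    rw [mp_actK, h₁, actK_actK, e1, e2, mp_actK, actK_actK, mp_mp]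
  obtain ⟨y, y', hy, hy'⟩ := descG ((IsLocalRing.residue O).comp c)
    (me (IsLocalRing.residue O) W') (me (IsLocalRing.residue O) W)
    (by rw [← me_mul, hW', me_one]) z
  refine ⟨y, y', fun s => O.valuation (A s), hy, fun s => (Valuation.ne_zero_iff _).2 (hA s),
    fun ε hε => ?_, hd, fun h1 => ?_⟩
  · by_contra hlt
    refine hε (hy' ε 0 ?_)
    rw [← mp_mp, ← mp_actK, valK_mp, map_zero, IsLocalRing.residue_eq_zero_iff,
      O.valuation_lt_one_iff]
    have h2 := O.valuation_le_one (valK (actK U U' z₁) ε)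
    have h3 := valK_mp O.subtype (actK U U' z₁) ε
    rw [e3, valK_dg, valK_mp] at h3
    rw [← O.subtype_apply, ← h3, map_mul, map_wl] at h2
    simp only [map_inv₀] at h2
    by_contra h4
    exact hlt ((le_mul_of_one_le_right' (not_lt.1 h4)).trans h2)
  · have m1 : ∀ s, A s ∈ O := fun s => (O.valuation_le_one_iff _).1 (h1 s).le
    have m2 : ∀ s, (A s)⁻¹ ∈ O := fun s => (O.valuation_le_one_iff _).1 (by
      rw [map_inv₀, show O.valuation (A s) = 1 from h1 s, inv_one])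
    have d1 : ∀ (B : Q.Col → K) (hB : ∀ s, B s ∈ O),
        me O.subtype (dgK fun s => (⟨B s, hB s⟩ : O)) = dgK B := fun B hB =>
      funext fun i => diagonal_map O.subtype.map_zero
    refine ⟨U' * (dgK (fun s => ⟨_, m1 s⟩) * W'), W * dgK (fun s => ⟨_, m2 s⟩) * U, ?_, ?_⟩
    · rw [me_mul, me_mul, d1, ← e1, ← mul_assoc, ← me_mul, hU, me_one, one_mul]
    · rw [me_mul, me_mul, d1, ← e2, mul_assoc, ← me_mul, hU, me_one, mul_one]

variable [Fintype I] [Fintype E]

/-- The character `∏ det ^ ν_i`. -/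
def chi (ν : I → ℤ) (g : EK Q K) : K := ∏ i, (g i).det ^ ν i

section coord

variable {Γ : Type} [LinearOrderedCommGroupWithZero Γ] {γ : Q.Col → Γ} {z : Q.Pt ℂ}

theorem isSub_co (h0 : ∀ a, γ a ≠ 0) (hs : ∀ ε, val z ε ≠ 0 → wl γ (fun a => (γ a)⁻¹) ε ≤ 1)
    (P : Γ → Prop) (hP : ∀ a b, a ≤ b → P b → P a) : z.IsSub (coord fun c => P (γ c)) := by
  intro e
  refine ⟨fun u hu => mem_coord.2 fun p hp => mulVec_zero _ _ _ fun r hr => ?_,
    fun u hu => mem_coord.2 fun p hp => mulVec_zero _ _ _ fun r hr => ?_⟩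
  · refine mem_coord.1 hu r fun h => hp (hP _ _ ?_ h)
    exact (mul_inv_le_iff₀ (zero_lt_iff.2 (h0 _))).1 (hs (.inl (.inl ⟨e, p, r⟩)) hr) |>.trans_eq
      (one_mul _)
  · refine mem_coord.1 hu r fun h => hp (hP _ _ ?_ h)
    exact (mul_inv_le_iff₀ (zero_lt_iff.2 (h0 _))).1 (hs (.inl (.inr ⟨e, p, r⟩)) hr) |>.trans_eq
      (one_mul _)

theorem pair_co (ν : I → ℤ) (P : Q.Col → Prop) [DecidablePred P] :
    QData.pair ν (coord P) = ∑ c with P c, ν c.1 := by
  have := pairR_coord (fun i => (ν i : ℝ)) P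
  rw [pairR_cast] at this
  exact_mod_cast this

theorem tot_co (ν : I → ℤ) (P : Q.Col → Prop) [DecidablePred P] :
    ∑ i, ν i * (Q.v i : ℤ) = ∑ c with P c, ν c.1 + ∑ c with ¬P c, ν c.1 := by
  rw [sum_filter_add_sum_filter_not, Fintype.sum_sigma]
  simp [mul_comm]

theorem ker_co (h0 : ∀ a, γ a ≠ 0) (hs : ∀ ε, val z ε ≠ 0 → wl γ (fun a => (γ a)⁻¹) ε ≤ 1)
    {δ : Γ} (hδ : δ ≤ 1) (i : I) : ∀ u ∈ coord (fun c => γ c < δ) i, (z.j i).mulVec u = 0 :=
  fun u hu => funext fun l => mulVec_zero _ _ _ fun p hp => mem_coord.1 hu p fun h =>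
    (h.trans_le hδ).not_ge ((inv_le_one₀ (zero_lt_iff.2 (h0 _))).1 (hs (.inr (.inl ⟨i, l, p⟩)) hp))

theorem im_co (hs : ∀ ε, val z ε ≠ 0 → wl γ (fun a => (γ a)⁻¹) ε ≤ 1)
    {δ : Γ} (hδ : 1 ≤ δ) (i : I) (a) : (z.i i).mulVec a ∈ coord (fun c => γ c ≤ δ) i :=
  mem_coord.2 fun p hp => mulVec_zero _ _ _ fun l hl =>
    absurd ((hs (.inr (.inr ⟨i, p, l⟩)) hl).trans hδ) hp

theorem ss_abel {ν : I → ℤ} (hz : z.SS ν) (h0 : ∀ a, γ a ≠ 0)
    (hs : ∀ ε, val z ε ≠ 0 → wl γ (fun a => (γ a)⁻¹) ε ≤ 1) :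
    ∏ c, γ c ^ ν c.1 ≤ 1 ∧ (z.St ν → ∏ c, γ c ^ ν c.1 = 1 → ∀ c, γ c = 1) := by
  have h := abel (fun c : Q.Col => ν c.1) γ h0 (fun δ hδ => by
    have h1 := (hz _ (isSub_co h0 hs (· ≤ δ) fun a b => le_trans)).2 (im_co hs hδ)
    rw [pair_co, tot_co ν fun c => γ c ≤ δ] at h1
    simp only [not_le] at h1
    linarith) fun δ hδ => by
    have h1 := (hz _ (isSub_co h0 hs (· < δ) fun a b => lt_of_le_of_lt)).1 (ker_co h0 hs hδ)
    rwa [pair_co] at h1
  refine ⟨h.1, fun hst => h.2 (fun ⟨c, hc⟩ => ?_) fun ⟨c, hc⟩ => ?_⟩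
  · have h1 := (hst _ (isSub_co h0 hs (· ≤ 1) fun a b => le_trans)).2 (im_co hs le_rfl)
      ⟨c.1, fun hb => by
        have h3 : (Pi.single c.2 1 : Fin (Q.v c.1) → ℂ) ∈ coord (fun c => γ c ≤ 1) c.1 := by
          rw [hb]; trivial
        have := mem_coord.1 h3 c.2 (not_le.2 hc)
        simp at this⟩
    rw [pair_co, tot_co ν fun c => γ c ≤ 1] at h1
    simp only [not_le] at h1
    linarith
  · have h1 := (hst _ (isSub_co h0 hs (· < 1) fun a b => lt_of_le_of_lt)).1 (ker_co h0 hs le_rfl)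
      ⟨c.1, fun hb => by
        have h3 : (Pi.single c.2 1 : Fin (Q.v c.1) → ℂ) ∈ coord (fun c => γ c < 1) c.1 :=
          mem_coord.2 fun p hp => Pi.single_eq_of_ne (by rintro rfl; exact hp hc) _
        rw [hb, Submodule.mem_bot] at h3
        simpa using congrFun h3 c.2⟩
    rwa [pair_co] at h1

end coord

theorem ss_act {ν : I → ℤ} {z : Q.Pt ℂ} (hz : z.SS ν) {g h : End Q} (hg : g * h = 1) :
    (act g h z).SS ν := (ssR_cast ν _).1 (((ssR_cast ν _).2 hz).act hg)

theorem st_act {ν : I → ℤ} {z : Q.Pt ℂ} (hz : z.St ν) {g h : End Q} (hg : g * h = 1) :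
    (act g h z).St ν := (stR_cast ν _).1 (((stR_cast ν _).2 hz).act hg)

/-- If `g z` is integral for a semistable `z`, then `ν(g)` is integral; if it is a unit and `z` is
stable, then `g` is an integral point of the group. -/
theorem hm_ss (c : ℂ →+* O) {ν : I → ℤ} {z : Q.Pt ℂ} (hs : z.SS ν) (g h : EK Q K)
    (hg : g * h = 1) (hz : ∀ ε, valK (actK g h (mp (O.subtype.comp c) z)) ε ∈ O) :
    O.valuation (chi ν g) ≤ 1 ∧ (z.St ν → O.valuation (chi ν g) = 1 →
      ∃ g' h' : EK Q O, me O.subtype g' = g ∧ me O.subtype h' = h) := by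
  obtain ⟨u, u', γ, h1, h2, h3, h4, h5⟩ := hm c z g h hg hz
  have e : O.valuation (chi ν g) = ∏ c, γ c ^ ν c.1 := by
    rw [chi, map_prod, Fintype.prod_sigma]
    exact prod_congr rfl fun i _ => by rw [map_zpow₀, h4, ← prod_zpow]
  have := ss_abel (ss_act hs h1) h2 h3
  rw [e]
  exact ⟨this.1, fun a b => h5 (this.2 (st_act a h1) b)⟩

end Vale.Agent.P291G
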