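import Vale.Agent.P291G.G2

/-!
# Semi-invariants at semistable points, closed orbits of stable points
-/

set_option linter.all false

noncomputable section

namespace Vale.Agent.P291G

open Vale.Agent.P291.Hik Vale.Agent.P291Z Vale.Agent.P291Z.KN Matrix Finset MvPolynomial
open MeasureTheory Filter Topology

variable {I E : Type} {Q : QData I E} [Fintype I] [Fintype E]

/-- The value of a polynomial at a point. -/
def ev (z : Q.Pt ℂ) : MvPolynomial (Ent Q) ℂ →+* ℂ := MvPolynomial.eval (val z)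

/-- The points of the group. -/
abbrev GP (Q : QData I E) : Type := {p : End Q × End Q // p.1 * p.2 = 1}

/-- The generic element. -/
def gR (Q : QData I E) : EK Q (GP Q → ℂ) := fun i => of fun a b x => x.1.1 i a b

/-- Its inverse. -/
def hR (Q : QData I E) : EK Q (GP Q → ℂ) := fun i => of fun a b x => x.1.2 i a b

/-- The restriction of polynomials to the orbit. -/
def orb (z : Q.Pt ℂ) : MvPolynomial (Ent Q) ℂ →+* (GP Q → ℂ) :=
  Pi.ringHom fun x => ev (act x.1.1 x.1.2 z)

theorem gR_hR : gR Q * hR Q = 1 := by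
  funext i a b x
  have h1 : me (Pi.evalRingHom (fun _ => ℂ) x) (gR Q * hR Q) =
      me (Pi.evalRingHom (fun _ => ℂ) x) 1 := by
    rw [me_mul, me_one]
    exact x.2
  exact congrFun (congrFun (congrFun h1 i) a) b

theorem orb_X (z : Q.Pt ℂ) (ε : Ent Q) :
    valK (actK (gR Q) (hR Q) (mp (Pi.constRingHom _ ℂ) z)) ε = orb z (X ε) := by
  funext x
  have := valK_mp (Pi.evalRingHom (fun _ => ℂ) x)
    (actK (gR Q) (hR Q) (mp (Pi.constRingHom _ ℂ) z)) ε
  rw [mp_actK, mp_mp, mp_id (fun _ => rfl), valK_eq] at this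
  exact this.symm.trans (MvPolynomial.eval_X ε).symm

theorem orb_C (z : Q.Pt ℂ) (a : ℂ) : orb z (C a) = Pi.constRingHom _ ℂ a :=
  funext fun x => MvPolynomial.eval_C a

theorem map_zpow' {T K : Type} [Field K] (π : (T → ℂ) →+* K) {d d' : T → ℂ} (h : d * d' = 1)
    (n : ℤ) : π (fun x => d x ^ n) = π d ^ n := by
  cases n with
  | ofNat n =>
    simp only [Int.ofNat_eq_natCast, zpow_natCast]
    exact map_pow π d n
  | negSucc n =>
    have h1 : π d' = (π d)⁻¹ := eq_inv_of_mul_eq_one_right (by rw [← map_mul, h, map_one])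
    have h2 : (fun x => d x ^ Int.negSucc n) = d' ^ (n + 1) := funext fun x => by
      rw [zpow_negSucc, Pi.pow_apply, eq_inv_of_mul_eq_one_right (congrFun h x), inv_pow]
    rw [h2, map_pow, h1, zpow_negSucc, inv_pow]

theorem chi_gR {K : Type} [Field K] (π : (GP Q → ℂ) →+* K) (ν : I → ℤ) :
    chi ν (me π (gR Q)) = π fun x => chi ν x.1.1 := by
  have : (fun x : GP Q => chi ν x.1.1) = ∏ i, fun x : GP Q => (gR Q i).det x ^ ν i := by
    funext x
    rw [Finset.prod_apply]
    exact prod_congr rfl fun i _ => congrArg (· ^ ν i)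
      ((Pi.evalRingHom (fun _ => ℂ) x).map_det (gR Q i)).symm
  rw [this, map_prod]
  refine prod_congr rfl fun i _ => ?_
  rw [map_zpow' π (d' := (hR Q i).det) (by
    rw [← det_mul, show gR Q i * hR Q i = 1 from congrFun gR_hR i, det_one])]
  exact congrArg (· ^ ν i) (π.map_det _).symm

theorem chi_mul {K : Type} [Field K] (ν : I → ℤ) (g h : EK Q K) :
    chi ν (g * h) = chi ν g * chi ν h := by
  simp [chi, mul_zpow, prod_mul_distrib]

theorem chi_one {K : Type} [Field K] (ν : I → ℤ) : chi ν (1 : EK Q K) = 1 := by simp [chi]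

theorem chi_inv {K : Type} [Field K] (ν : I → ℤ) {g h : EK Q K} (e : g * h = 1) :
    chi ν g * chi ν h = 1 := by rw [← chi_mul, e, chi_one]

section val

variable {K : Type} [Field K] {O : ValuationSubring K} {π : (GP Q → ℂ) →+* K} {z : Q.Pt ℂ}

/-- The constants. -/
def cst (h : ∀ p, π (orb z p) ∈ O) : ℂ →+* O :=
  (π.comp (Pi.constRingHom _ ℂ)).codRestrict O.toSubring fun a => by
    have := h (C a)
    rwa [orb_C] at this

theorem val_gen (h : ∀ p, π (orb z p) ∈ O) (ε : Ent Q) :
    valK (actK (me π (gR Q)) (me π (hR Q)) (mp (O.subtype.comp (cst h)) z)) ε =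
      π (orb z (X ε)) := by
  rw [← orb_X, ← valK_mp, mp_actK, mp_mp]
  rfl

theorem cst_coe (h : ∀ p, π (orb z p) ∈ O) (a : ℂ) :
    O.subtype (cst h a) = π (Pi.constRingHom _ ℂ a) := rfl

theorem v_cst (h : ∀ p, π (orb z p) ∈ O) {a : ℂ} (ha : a ≠ 0) :
    O.valuation (π (Pi.constRingHom _ ℂ a)) = 1 :=
  (O.valuation_eq_one_iff (cst h a)).1 ((IsUnit.mk0 a ha).map _)

theorem gen_inv : me π (gR Q) * me π (hR Q) = 1 := by rw [← me_mul, gR_hR, me_one]

end val

theorem exists_rel {ν : I → ℤ} {z : Q.Pt ℂ} (hz : z.SS ν) :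
    ∃ (N : ℕ) (q : ℕ → MvPolynomial (Ent Q) ℂ), ∀ g h : End Q, g * h = 1 →
      ∑ j ∈ range N, ev (act g h z) (q j) * chi ν h ^ (j + 1) = 1 := by
  let t : GP Q → ℂ := fun x => chi ν x.1.2
  let φ : Polynomial (MvPolynomial (Ent Q) ℂ) →+* (GP Q → ℂ) := Polynomial.eval₂RingHom (orb z) t
  have hI : RingHom.ker φ ⊔ Ideal.span {Polynomial.X} = ⊤ := by
    by_contra hI
    obtain ⟨K, _, π, O, h1, h2⟩ := exists_val φ _ hI le_sup_left
    have h3 : ∀ p, π (orb z p) ∈ O := fun p => by simpa [φ] using h1 (Polynomial.C p)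
    have h4 := (hm_ss (cst h3) hz _ _ gen_inv fun ε => by rw [val_gen]; exact h3 _).1
    have h5 := h2 Polynomial.X (Ideal.mem_sup_right (Ideal.subset_span rfl))
    have h6 : φ Polynomial.X = t := by simp [φ]
    have h7 : (fun x : GP Q => chi ν x.1.1) * t = 1 := funext fun x => chi_inv ν x.2
    have h8 := congrArg (fun a => O.valuation (π a)) h7
    simp only [map_mul, map_one] at h8
    rw [chi_gR] at h4
    rw [h6] at h5
    exact ((mul_le_of_le_one_left' h4).trans_lt h5).ne h8
  obtain ⟨r, hr, s, hs, e⟩ := Submodule.mem_sup.1 ((Ideal.eq_top_iff_one _).1 hI)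
  obtain ⟨q, rfl⟩ := Ideal.mem_span_singleton'.1 hs
  have e1 := congrArg φ e
  rw [map_add, (RingHom.mem_ker.1 hr), zero_add, map_mul, map_one] at e1
  simp only [φ, Polynomial.coe_eval₂RingHom, Polynomial.eval₂_X] at e1
  rw [Polynomial.eval₂_eq_sum_range, sum_mul] at e1
  refine ⟨q.natDegree + 1, q.coeff, fun g h hg => ?_⟩
  have e2 := congrFun e1 ⟨(g, h), hg⟩
  rw [Finset.sum_apply] at e2
  refine Eq.trans (sum_congr rfl fun j _ => ?_) e2
  rw [pow_succ, ← mul_assoc]
  rfl

theorem closed_orbit {ν : I → ℤ} {z y : Q.Pt ℂ} (hz : z.St ν) {m : ℕ} (hm : 0 < m)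
    {p : MvPolynomial (Ent Q) ℂ} {b : ℂ}
    (hp : ∀ g h : End Q, g * h = 1 → ev (act g h z) p = chi ν g ^ m * b) (hy : ev y p ≠ 0)
    (hc : ∀ p, (∀ g h : End Q, g * h = 1 → ev (act g h z) p = 0) → ev y p = 0) :
    ∃ g h : End Q, g * h = 1 ∧ act g h z = y := by
  obtain ⟨K, _, π, O, h1, h2⟩ := exists_val (orb z) (RingHom.ker (ev y)) (RingHom.ker_ne_top _)
    fun p hp => hc p fun g h hg => congrFun (RingHom.mem_ker.1 hp) ⟨(g, h), hg⟩
  have h3 : ∀ p, O.valuation (π (orb z p) - π (Pi.constRingHom _ ℂ (ev y p))) < 1 := fun p => by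
    have := h2 (p - C (ev y p)) (by simp [RingHom.mem_ker, ev])
    rwa [map_sub, map_sub, orb_C] at this
  have h5 : O.valuation (π (orb z p)) = 1 := by
    have := Valuation.map_add_eq_of_lt_right O.valuation ((h3 p).trans_eq (v_cst h1 hy).symm)
    rwa [sub_add_cancel, v_cst h1 hy] at this
  have h6 : orb z p = (fun x : GP Q => chi ν x.1.1) ^ m * Pi.constRingHom _ ℂ b :=
    _root_.funext fun x => hp _ _ x.2
  have hb : b ≠ 0 := by
    rintro rfl
    rw [h6, map_zero, mul_zero, map_zero, map_zero] at h5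
    exact zero_ne_one h5
  rw [h6, map_mul, map_mul, map_pow, map_pow, ← chi_gR, v_cst h1 hb, mul_one,
    pow_eq_one_iff_of_nonneg zero_le hm.ne'] at h5
  obtain ⟨g', h', e1, e2⟩ := (hm_ss (cst h1) (st_ss hz) _ _ gen_inv fun ε => by
    rw [val_gen]; exact h1 _).2 hz h5
  have e3 : g' * h' = 1 := by
    have : me O.subtype (g' * h') = me O.subtype 1 := by rw [me_mul, e1, e2, gen_inv, me_one]
    funext i a b
    exact Subtype.ext (congrFun (congrFun (congrFun this i) a) b)
  obtain ⟨u, u', hu, hu'⟩ := descG ((IsLocalRing.residue O).comp (cst h1))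
    (me (IsLocalRing.residue O) g') (me (IsLocalRing.residue O) h')
    (by rw [← me_mul, e3, me_one]) z
  refine ⟨u, u', hu, valK_inj fun ε => ?_⟩
  rw [valK_eq, valK_eq]
  refine hu' ε _ ?_
  rw [← mp_mp, ← mp_actK, valK_mp, RingHom.comp_apply, ← sub_eq_zero, ← map_sub,
    IsLocalRing.residue_eq_zero_iff, O.valuation_lt_one_iff]
  have h7 := valK_mp O.subtype (actK g' h' (mp (cst h1) z)) ε
  rw [mp_actK, e1, e2, mp_mp, val_gen, eq_comm] at h7
  have h8 := h3 (X ε)
  rw [← h7, show ev y (X ε) = val y ε from MvPolynomial.eval_X ε, ← cst_coe h1, ← map_sub] at h8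
  exact h8

/-! ### Averaging over the unitary group -/

theorem val_lin (g h : End Q) (y : Q.Pt ℂ) (ε : Ent Q) [DecidableEq (Ent Q)] :
    val (act g h y) ε =
      ∑ δ, val y δ * val (act g h (unval fun j => if δ = j then 1 else 0)) ε := by
  let L : (Ent Q → ℂ) →ₗ[ℂ] ℂ :=
    { toFun := fun a => val (act g h (unval a)) ε
      map_add' := fun a b => by
        rcases ε with (e | e) | (e | e) <;>
          simp [KN.val, act, unval, Matrix.mul_apply, sum_add_distrib, mul_add, add_mul]
      map_smul' := fun c a => by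
        rcases ε with (e | e) | (e | e) <;>
          simp only [KN.val, act, unval, Matrix.mul_apply, of_apply, Pi.smul_apply, smul_eq_mul,
            RingHom.id_apply, mul_sum, sum_mul, mul_assoc, mul_left_comm _ c] }
  have := L.pi_apply_eq_sum_univ (val y)
  change val (act g h (unval (val y))) ε = _ at this
  rwa [unval_val] at this

theorem cont_ev {T : Type} [TopologicalSpace T] {f : T → Q.Pt ℂ} (hf : Cont f)
    (p : MvPolynomial (Ent Q) ℂ) : Continuous fun τ => ev (f τ) p :=
  (MvPolynomial.continuous_eval p).comp hf.val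

theorem avg {T : Type} [TopologicalSpace T] [CompactSpace T] [MeasurableSpace T]
    [OpensMeasurableSpace T] (μ : Measure T) [IsFiniteMeasure μ] {g h : T → End Q}
    (hg : Continuous g) (hh : Continuous h) (p : MvPolynomial (Ent Q) ℂ) :
    ∀ c : T → ℂ, Continuous c → ∃ p', ∀ y, ev y p' = ∫ k, ev (act (g k) (h k) y) p * c k ∂μ := by
  classical
  have hi : ∀ {f : T → ℂ}, Continuous f → Integrable f μ := fun hf =>
    hf.integrable_of_hasCompactSupport (HasCompactSupport.of_compactSpace _)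
  have hc : ∀ y p, Continuous fun k => ev (act (g k) (h k) y) p := fun y p =>
    cont_ev ((cont_const y).act hg hh) p
  induction p using MvPolynomial.induction_on with
  | C a => exact fun c _ => ⟨C (∫ k, a * c k ∂μ), fun y => by simp [ev]⟩
  | add p q hp hq =>
    intro c h1
    obtain ⟨p', hp'⟩ := hp c h1
    obtain ⟨q', hq'⟩ := hq c h1
    refine ⟨p' + q', fun y => ?_⟩
    rw [map_add, hp', hq', ← integral_add (hi ((hc y p).fun_mul h1)) (hi ((hc y q).fun_mul h1))]
    simp only [map_add, add_mul]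
  | mul_X p ε hp =>
    intro c h1
    have h2 : ∀ δ, Continuous fun k =>
        val (act (g k) (h k) (unval fun j => if δ = j then 1 else 0)) ε * c k := fun δ =>
      ((continuous_apply ε).comp ((cont_const _).act hg hh).val).mul h1
    choose p' hp' using fun δ => hp _ (h2 δ)
    refine ⟨∑ δ, X δ * p' δ, fun y => ?_⟩
    have e : ∀ (y : Q.Pt ℂ) δ, ev y (X δ) = val y δ := fun y δ => MvPolynomial.eval_X δ
    simp only [map_sum, map_mul, hp', e, ← integral_const_mul]
    rw [← integral_finset_sum _ fun δ _ => hi (continuous_const.fun_mul ((hc y p).fun_mul (h2 δ)))]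
    congr 1
    funext k
    rw [val_lin, mul_sum, sum_mul]
    exact sum_congr rfl fun δ _ => by ring

theorem cont_chi {T : Type} [TopologicalSpace T] (ν : I → ℤ) {g h : T → End Q} (hg : Continuous g)
    (e : ∀ k, g k * h k = 1) : Continuous fun k => chi ν (g k) :=
  continuous_finset_prod _ fun i _ => ((continuous_apply i).comp hg).matrix_det.zpow₀ _ fun k =>
    Or.inl (left_ne_zero_of_mul_eq_one (b := (h k i).det) (by
      rw [← det_mul]
      exact (congrArg det (congrFun (e k) i)).trans det_one))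

theorem exists_semi_K {ν : I → ℤ} {z : Q.Pt ℂ} (hz : z.SS ν) :
    ∃ (m : ℕ) (p : MvPolynomial (Ent Q) ℂ), 0 < m ∧ ev z p ≠ 0 ∧ ∀ u : End Q, star u * u = 1 →
      ∀ y, ev (act u (star u) y) p = chi ν u ^ m * ev y p := by
  obtain ⟨N, q, hq⟩ := exists_rel hz
  letI : MeasurableSpace (unitary (End Q)) := borel _
  haveI : BorelSpace (unitary (End Q)) := ⟨rfl⟩
  haveI : CompactSpace (unitary (End Q)) := isCompact_iff_compactSpace.1 (by
    convert isCompact_K Q
    ext u
    exact ⟨fun h => h.1, fun h => ⟨h, End.mul_eq_one_comm h⟩⟩)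
  let μ : Measure (unitary (End Q)) := Measure.haarMeasure ⊤
  haveI : IsProbabilityMeasure μ := ⟨by simpa [μ] using Measure.haarMeasure_self (G := unitary (End Q)) (K₀ := ⊤)⟩
  have c1 : Continuous fun k : unitary (End Q) => (k : End Q) := continuous_subtype_val
  have c2 := continuous_starE c1
  have c3 : ∀ j, Continuous fun k : unitary (End Q) => chi ν (k : End Q) ^ (j + 1) := fun j =>
    (cont_chi ν c1 fun k => k.2.2).pow _
  choose p hp using fun j => avg μ c2 c1 (q j) _ (c3 j)
  have h1 : ∑ j ∈ range N, ev z (p j) = 1 := by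
    simp only [hp]
    rw [← integral_finset_sum _ fun j _ => ((cont_ev ((cont_const z).act c2 c1) _).fun_mul
      (c3 j)).integrable_of_hasCompactSupport (HasCompactSupport.of_compactSpace _)]
    simp [hq _ _ (Unitary.star_mul_self_of_mem (Subtype.prop _))]
  obtain ⟨j, -, hj⟩ := exists_ne_zero_of_sum_ne_zero (h1.trans_ne one_ne_zero)
  refine ⟨j + 1, p j, j.succ_pos, hj, fun u hu y => ?_⟩
  rw [hp, hp, ← integral_const_mul, ← integral_mul_left_eq_self _
    (⟨u, hu, End.mul_eq_one_comm hu⟩ : unitary (End Q))]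
  congr 1
  funext k
  change ev (act (star (u * k.1)) (u * k.1) _) _ * chi ν (u * k.1) ^ _ = _
  rw [act_act, star_mul, mul_assoc _ _ u, hu, mul_one, ← mul_assoc (star u), hu, one_mul, chi_mul]
  ring

theorem chi_dg (ν : I → ℤ) (a : Q.Col → ℂ) : chi ν (dgK a) = ∏ c, a c ^ ν c.1 := by
  rw [chi, Fintype.prod_sigma]
  exact prod_congr rfl fun i _ => by rw [dgK, det_diagonal, ← prod_zpow]

theorem val_dg (a b : Q.Col → ℂ) (z : Q.Pt ℂ) (ε : Ent Q) :
    val (act (dgK a) (dgK b) z) ε = wl a b ε * val z ε := by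
  rw [← valK_eq, ← valK_eq]
  exact valK_dg a b z ε

theorem semi_torus {ν : I → ℤ} {m : ℕ} {p : MvPolynomial (Ent Q) ℂ}
    (h : ∀ u : End Q, star u * u = 1 → ∀ y, ev (act u (star u) y) p = chi ν u ^ m * ev y p)
    (t : Q.Col → ℝ) (y : Q.Pt ℂ) :
    ev (act (ex t) (ex (-t)) y) p = chi ν (ex t) ^ m * ev y p := by
  let a : ℂ → Q.Col → ℂ := fun s c => Complex.exp (s * t c)
  have d1 : ∀ p, Differentiable ℂ fun s => ev (act (dgK (a s)) (dgK (a (-s))) y) p := fun p => by
    induction p using MvPolynomial.induction_on with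
    | C b => simp [ev]
    | add p q hp hq => simp only [map_add]; exact hp.fun_add hq
    | mul_X p ε hp =>
      simp only [map_mul]
      refine hp.fun_mul ?_
      simp only [ev, MvPolynomial.eval_X, val_dg]
      refine Differentiable.mul_const ?_ _
      rcases ε with (e | e) | (e | e) <;> simp only [wl, a] <;> fun_prop
  have d2 : Differentiable ℂ fun s => chi ν (dgK (a s)) ^ m * ev y p := by
    simp only [chi_dg, a, ← Complex.exp_int_mul]
    fun_prop
  have e : ∀ r : ℝ, ev (act (dgK (a (r * Complex.I))) (dgK (a (-(r * Complex.I)))) y) p =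
      chi ν (dgK (a (r * Complex.I))) ^ m * ev y p := fun r => by
    have h1 : star (dgK (a (r * Complex.I))) = dgK (a (-(r * Complex.I))) := funext fun i => by
      simp [dgK, a, star_eq_conjTranspose, diagonal_conjTranspose, ← Complex.exp_conj,
        _root_.funext_iff]
    rw [← h1]
    refine h _ ?_ y
    rw [h1]
    funext i
    simp [dgK, a, ← Complex.exp_add]
  have hf : ∃ᶠ s in 𝓝[≠] (0 : ℂ), ev (act (dgK (a s)) (dgK (a (-s))) y) p =
      chi ν (dgK (a s)) ^ m * ev y p := by
    have : Tendsto (fun r : ℝ => (r : ℂ) * Complex.I) (𝓝[≠] 0) (𝓝[≠] 0) :=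
      tendsto_nhdsWithin_iff.2 ⟨(Continuous.tendsto' (by fun_prop) _ _ (by simp)).mono_left
        nhdsWithin_le_nhds, eventually_nhdsWithin_of_forall fun r hr => by simpa using hr⟩
    exact this.frequently (Frequently.of_forall e)
  have := congrFun (AnalyticOnNhd.eq_of_frequently_eq (fun s _ => (d1 p).analyticAt s)
    (fun s _ => d2.analyticAt s) hf) 1
  have e1 : dgK (a 1) = ex t := funext fun i => by simp [dgK, ex, dg, a]
  have e2 : dgK (a (-1)) = ex (-t) := funext fun i => by simp [dgK, ex, dg, a]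
  rwa [e1, e2] at this

/-- A semistable point has a semi-invariant which does not vanish at it. -/
theorem exists_semi {ν : I → ℤ} {z : Q.Pt ℂ} (hz : z.SS ν) :
    ∃ (m : ℕ) (p : MvPolynomial (Ent Q) ℂ), 0 < m ∧ ev z p ≠ 0 ∧ ∀ g h : End Q, g * h = 1 →
      ∀ y, ev (act g h y) p = chi ν g ^ m * ev y p := by
  obtain ⟨m, p, h1, h2, h3⟩ := exists_semi_K hz
  refine ⟨m, p, h1, h2, fun g h hg y => ?_⟩
  obtain ⟨k, u, t, hk, hu, rfl, rfl⟩ := kakE hg
  rw [mul_assoc k, ← act_act, ← act_act, h3 k hk, semi_torus h3, h3 u hu, chi_mul, chi_mul]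
  ring

end Vale.Agent.P291G
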