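import Vale.Agent.P291G.G3

/-!
# King's theorem: invariant theoretic and numerical stability agree
-/

set_option linter.all false

noncomputable section

namespace Vale.Agent.P291G

open Vale.Agent.P291.Hik Vale.Agent.P291Z Vale.Agent.P291Z.KN Matrix Finset MvPolynomial
open Filter Topology Module

variable {I E : Type} {Q : QData I E} [Fintype I] [Fintype E]

/-- Semi-invariants of weight `ν^m` on `μ⁻¹(0)`. -/
def SI (ν : I → ℤ) (m : ℕ) (p : MvPolynomial (Ent Q) ℂ) : Prop :=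
  ∀ g h : End Q, g * h = 1 → ∀ z : Q.Pt ℂ, (∀ ξ, z.mu ξ = 0) →
    ev (act g h z) p = chi ν g ^ m * ev z p

/-- Semistability. -/
def PSS (ν : I → ℤ) (z : Q.Pt ℂ) : Prop := ∃ m, 0 < m ∧ ∃ p, SI ν m p ∧ ev z p ≠ 0

/-- `y` is in the Zariski closure of the orbit of `z`. -/
def Clo (z y : Q.Pt ℂ) : Prop :=
  ∀ p, (∀ g h : End Q, g * h = 1 → ev (act g h z) p = 0) → ev y p = 0

/-- The stabilizer. -/
def Stab (z : Q.Pt ℂ) : Set (End Q) := {g | ∃ h, g * h = 1 ∧ act g h z = z}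

/-- The weight of a coordinate. -/
def wz (n : Q.Col → ℤ) : Ent Q → ℤ
  | .inl (.inl e) => n ⟨Q.t e.1, e.2.1⟩ - n ⟨Q.s e.1, e.2.2⟩
  | .inl (.inr e) => n ⟨Q.s e.1, e.2.1⟩ - n ⟨Q.t e.1, e.2.2⟩
  | .inr (.inl e) => -n ⟨e.1, e.2.2⟩
  | .inr (.inr e) => n ⟨e.1, e.2.1⟩

/-- The one-parameter subgroup. -/
def lam (n : Q.Col → ℤ) (t : ℂ) : End Q := dgK fun c => t ^ n c

theorem lam_inv (n : Q.Col → ℤ) {t : ℂ} (ht : t ≠ 0) : lam n t * lam (-n) t = 1 :=
  _root_.funext fun i => by simp [lam, dgK, zpow_ne_zero _ ht]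

theorem val_lam (n : Q.Col → ℤ) {t : ℂ} (ht : t ≠ 0) (z : Q.Pt ℂ) (ε : Ent Q) :
    val (act (lam n t) (lam (-n) t) z) ε = t ^ wz n ε * val z ε := by
  rw [lam, lam, val_dg]
  rcases ε with (e | e) | (e | e) <;> simp [wl, wz, zpow_sub₀ ht, div_eq_mul_inv]

theorem chi_lam (ν : I → ℤ) (n : Q.Col → ℤ) {t : ℂ} (ht : t ≠ 0) :
    chi ν (lam n t) = t ^ ∑ c, ν c.1 * n c := by
  rw [lam, chi_dg]
  have : ∀ s : Finset Q.Col, ∏ c ∈ s, (t ^ n c) ^ ν c.1 = t ^ ∑ c ∈ s, ν c.1 * n c := fun s => by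
    classical
    induction s using Finset.induction_on with
    | empty => simp
    | insert a s ha ih => rw [sum_insert ha, prod_insert ha, zpow_add₀ ht, ih, ← _root_.zpow_mul,
        mul_comm (n a)]
  exact this _

theorem at_zero {Φ Ψ : ℂ → ℂ} (h1 : Continuous Φ) (h2 : Continuous Ψ)
    (h : ∀ t, t ≠ 0 → Φ t = Ψ t) : Φ 0 = Ψ 0 :=
  congrFun (Continuous.ext_on (dense_compl_singleton 0) h1 h2 h) 0

theorem val_inj {z z' : Q.Pt ℂ} (h : ∀ ε, val z ε = val z' ε) : z = z' :=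
  valK_inj fun ε => by rw [valK_eq, valK_eq, h]

theorem torus {ν : I → ℤ} {m : ℕ} (hm : 0 < m) {p : MvPolynomial (Ent Q) ℂ} (hp : SI ν m p)
    {z : Q.Pt ℂ} (hμ : ∀ ξ, z.mu ξ = 0) (hz : ev z p ≠ 0) {n : Q.Col → ℤ}
    (hn : ∀ ε, val z ε ≠ 0 → 0 ≤ wz n ε) :
    0 ≤ ∑ c, ν c.1 * n c ∧ (∑ c, ν c.1 * n c = 0 → (∃ c, n c ≠ 0) →
      ∃ y : Q.Pt ℂ, (∀ ξ, y.mu ξ = 0) ∧ ev y p ≠ 0 ∧ Clo z y ∧ (Stab y).Infinite) := by
  let W : ℂ → Q.Pt ℂ := fun t => unval fun ε => t ^ (wz n ε).toNat * val z ε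
  have c1 : Cont W := cont_unval (by fun_prop)
  have e1 : ∀ t, t ≠ 0 → W t = act (lam n t) (lam (-n) t) z := fun t ht => val_inj fun ε => by
    rw [val_unval, val_lam n ht]
    by_cases h : val z ε = 0
    · simp [h]
    · rw [← zpow_natCast, Int.toNat_of_nonneg (hn ε h)]
  have e2 : ∀ t, t ≠ 0 → ev (W t) p = (t ^ ∑ c, ν c.1 * n c) ^ m * ev z p := fun t ht => by
    rw [e1 t ht, hp _ _ (lam_inv n ht) z hμ, chi_lam ν n ht]
  refine ⟨not_lt.1 fun h => hz ?_, fun h ⟨c, hc⟩ => ⟨W 0, fun ξ => ?_, ?_, fun q hq => ?_, ?_⟩⟩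
  · obtain ⟨d, hd⟩ := Int.eq_ofNat_of_zero_le (neg_nonneg.2 h.le)
    have hd0 : d ≠ 0 := by omega
    have := at_zero (Φ := fun t => ev (W t) p * (t ^ d) ^ m) (Ψ := fun _ => ev z p)
      ((cont_ev c1 p).fun_mul (by fun_prop)) continuous_const fun t ht => by
        rw [e2 t ht, neg_eq_iff_eq_neg.1 hd, _root_.zpow_neg, zpow_natCast, mul_right_comm,
          ← mul_pow, inv_mul_cancel₀ (pow_ne_zero _ ht), one_pow, one_mul]
    simpa [hd0, hm.ne'] using this.symm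
  · exact at_zero (c1.mu ξ) continuous_const fun t ht => by
      rw [e1 t ht, mu_act (lam_inv n ht), hμ]
  · rwa [at_zero (cont_ev c1 p) (continuous_const (y := ev z p)) fun t ht => by
      rw [e2 t ht, h]; simp]
  · exact at_zero (cont_ev c1 q) continuous_const fun t ht => by
      rw [e1 t ht, hq _ _ (lam_inv n ht)]
  · have h2 : ∀ k : ℕ, ((2 : ℂ) ^ k) ≠ 0 := fun k => pow_ne_zero _ two_ne_zero
    refine Set.infinite_of_injective_forall_mem (f := fun k : ℕ => lam n (2 ^ k))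
      (fun k l e => ?_) fun k => ⟨_, lam_inv n (h2 k), val_inj fun ε => ?_⟩
    · have h3 := congrArg norm (congrFun (congrFun (congrFun e c.1) c.2) c.2)
      simp only [lam, dgK, diagonal_apply_eq, norm_zpow, norm_pow, Complex.norm_ofNat] at h3
      rw [← zpow_natCast, ← zpow_natCast, ← _root_.zpow_mul, ← _root_.zpow_mul,
        zpow_right_inj₀ two_pos (by norm_num)] at h3
      exact_mod_cast mul_right_cancel₀ hc h3
    · rw [val_lam n (h2 k), val_unval]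
      by_cases h : val z ε = 0
      · simp [h]
      · rcases (hn ε h).eq_or_lt with h4 | h4
        · rw [← h4]; simp
        · rw [zero_pow (by omega)]; simp

theorem conj_key {a b : Type} [Fintype a] [Fintype b] [DecidableEq a] [DecidableEq b]
    {P U U' S : Matrix a a ℂ} {P' V V' S' : Matrix b b ℂ} {x : Matrix a b ℂ} (h1 : U' * U = 1)
    (h2 : V' * V = 1) (e : S = U * P * U') (e' : S' = V * P' * V') (h : P * (x * P') = x * P') :
    S * (U * x * V' * S') = U * x * V' * S' := by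
  subst e e'
  simp only [Matrix.mul_assoc]
  rw [← Matrix.mul_assoc U', h1, Matrix.one_mul, ← Matrix.mul_assoc V', h2, Matrix.one_mul,
    ← Matrix.mul_assoc x, ← Matrix.mul_assoc P, h]

/-- A subrepresentation becomes a coordinate subspace after a unitary change of basis. -/
theorem diag_form (ν : I → ℤ) (z : Q.Pt ℂ) (U : ∀ i : I, Submodule ℂ (Fin (Q.v i) → ℂ))
    (hU : z.IsSub U) : ∃ (u : End Q) (s : Q.Col → ℤ), u * star u = 1 ∧
      ∑ c, ν c.1 * s c = QData.pair ν U ∧ ((∃ i, U i ≠ ⊥) → ∃ c, s c ≠ 0) ∧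
      ((∃ i, U i ≠ ⊤) → ∃ c, s c - 1 ≠ 0) ∧
      ((∀ i, ∀ u ∈ U i, (z.j i).mulVec u = 0) →
        ∀ ε, val (act u (star u) z) ε ≠ 0 → 0 ≤ wz s ε) ∧
      ((∀ i a, (z.i i).mulVec a ∈ U i) →
        ∀ ε, val (act u (star u) z) ε ≠ 0 → 0 ≤ wz (fun c => s c - 1) ε) := by
  classical
  obtain ⟨p, h1, h2, h3, h4, h5, h6, h7⟩ := exists_projs z U hU
  obtain ⟨u, r, hu, e⟩ := herm_diagE h1
  have hu' := End.mul_eq_one_comm hu
  have e1 : dg (fun c => (r c : ℂ)) = u * p * star u := by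
    rw [e, ← mul_assoc, ← mul_assoc, hu', one_mul, mul_assoc, hu', mul_one]
  have e2 : ∀ c, (r c : ℂ) = 0 ∨ (r c : ℂ) = 1 := fun c => by
    have : dg (fun c => (r c : ℂ)) * dg (fun c => (r c : ℂ)) = dg fun c => (r c : ℂ) := by
      rw [e1, mul_assoc, ← mul_assoc (star u), ← mul_assoc (star u), hu, one_mul, ← mul_assoc,
        mul_assoc u, h2]
    rw [dg_mul] at this
    have h := congrFun (congrFun (congrFun this c.1) c.2) c.2
    simp only [dg, diagonal_apply_eq] at h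
    by_cases h0 : (r c : ℂ) = 0
    exacts [Or.inl h0, Or.inr (mul_left_cancel₀ h0 (h.trans (mul_one _).symm))]
  choose s e3 e4 using fun c => show ∃ s : ℤ, (r c : ℂ) = s ∧ (s = 0 ∨ s = 1) from
    (e2 c).elim (fun h => ⟨0, by simpa using h, Or.inl rfl⟩) fun h => ⟨1, by simpa using h, Or.inr rfl⟩
  have e5 : ∀ i, diagonal (fun a => (s ⟨i, a⟩ : ℂ)) = u i * p i * (star u) i := fun i => by
    simpa only [dg, e3, Pi.mul_apply] using congrFun e1 i
  have hi : ∀ i, (star u) i * u i = 1 := congrFun hu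
  have e6 : ∀ i, ∑ a, s ⟨i, a⟩ = finrank ℂ (U i) := fun i => by
    have := congrArg trace (e5 i)
    rw [trace_mul_cycle, hi, Matrix.one_mul, h3, trace_diagonal] at this
    exact_mod_cast this
  have k1 : ∀ {a b : Type} [Fintype a] [Fintype b] [DecidableEq a] [DecidableEq b]
      (x : Matrix a b ℂ) (f : a → ℤ) (g : b → ℤ), (∀ i, f i = 0 ∨ f i = 1) →
      (∀ i, g i = 0 ∨ g i = 1) → diagonal (fun i => (f i : ℂ)) * (x * diagonal fun i => (g i : ℂ))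
      = x * diagonal (fun i => (g i : ℂ)) → ∀ i j, x i j ≠ 0 → 0 ≤ f i - g j := by
    intro a b _ _ _ _ x f g hf hg h i j hx
    have := congrFun (congrFun h i) j
    rw [diagonal_mul, mul_diagonal] at this
    rcases hf i with a | a <;> rcases hg j with b | b <;> rw [a, b] at this ⊢ <;>
      first | omega | exact absurd (by simpa using this.symm) hx
  have k2 : ∀ e a b, (act u (star u) z).x e a b ≠ 0 → 0 ≤ s ⟨Q.t e, a⟩ - s ⟨Q.s e, b⟩ := fun e =>
    k1 _ _ _ (fun _ => e4 _) (fun _ => e4 _) (conj_key (hi _) (hi _) (e5 _) (e5 _) (h4 e))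
  have k3 : ∀ e a b, (act u (star u) z).y e a b ≠ 0 → 0 ≤ s ⟨Q.s e, a⟩ - s ⟨Q.t e, b⟩ := fun e =>
    k1 _ _ _ (fun _ => e4 _) (fun _ => e4 _) (conj_key (hi _) (hi _) (e5 _) (e5 _) (h5 e))
  refine ⟨u, s, hu', ?_, fun ⟨i, h⟩ => ?_, fun ⟨i, h⟩ => ?_, fun h ε hε => ?_, fun h ε hε => ?_⟩
  · rw [Fintype.sum_sigma, QData.pair]
    exact sum_congr rfl fun i _ => by rw [← e6, mul_sum]
  · by_contra! h0
    have := e6 i
    simp only [h0, sum_const_zero] at this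
    exact h (Submodule.finrank_eq_zero.1 (by exact_mod_cast this.symm))
  · by_contra! h0
    have := e6 i
    simp only [sub_eq_zero.1 (h0 _), sum_const, card_univ, Fintype.card_fin, nsmul_eq_mul,
      mul_one] at this
    exact h (Submodule.eq_top_of_finrank_eq (by simpa using this.symm))
  · rcases ε with (a | a) | (a | a)
    · exact k2 _ _ _ hε
    · exact k3 _ _ _ hε
    · have h8 : (act u (star u) z).j a.1 * diagonal (fun b => (s ⟨a.1, b⟩ : ℂ)) = 0 := by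
        rw [e5]
        simp only [act, Matrix.mul_assoc]
        rw [← Matrix.mul_assoc ((star u) a.1), hi, Matrix.one_mul, ← Matrix.mul_assoc, h6 h,
          Matrix.zero_mul]
      have h9 := congrFun (congrFun h8 a.2.1) a.2.2
      rw [mul_diagonal] at h9
      have : s ⟨a.1, a.2.2⟩ = 0 := by exact_mod_cast (mul_eq_zero.1 h9).resolve_left hε
      simp [wz, this]
    · rcases e4 ⟨a.1, a.2.1⟩ with h | h <;> simp [wz, h]
  · rcases ε with (a | a) | (a | a)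
    · simpa [wz] using k2 _ _ _ hε
    · simpa [wz] using k3 _ _ _ hε
    · rcases e4 ⟨a.1, a.2.2⟩ with h | h <;> simp [wz, h]
    · have h8 : diagonal (fun b => (s ⟨a.1, b⟩ : ℂ)) * (act u (star u) z).i a.1 =
          (act u (star u) z).i a.1 := by
        rw [e5]
        simp only [act, Matrix.mul_assoc]
        rw [← Matrix.mul_assoc ((star u) a.1), hi, Matrix.one_mul, h7 h]
      have h9 := congrFun (congrFun h8 a.2.1) a.2.2
      rw [diagonal_mul] at h9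
      have : s ⟨a.1, a.2.1⟩ = 1 := by exact_mod_cast (mul_left_eq_self₀.1 h9).resolve_right hε
      simp [wz, this]

theorem Clo.of_act {z y : Q.Pt ℂ} {g h : End Q} (e : g * h = 1) (H : Clo (act g h z) y) :
    Clo z y := fun p hp => H p fun a b hab => by
  rw [act_act]
  exact hp _ _ (by rw [mul_assoc, ← mul_assoc g, e, one_mul, hab])

theorem chi_ne (ν : I → ℤ) {g h : End Q} (e : g * h = 1) : chi ν g ≠ 0 :=
  left_ne_zero_of_mul_eq_one (chi_inv ν e)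

theorem easy {ν : I → ℤ} {m : ℕ} (hm : 0 < m) {p : MvPolynomial (Ent Q) ℂ} (hp : SI ν m p)
    {z : Q.Pt ℂ} (hμ : ∀ ξ, z.mu ξ = 0) (hz : ev z p ≠ 0) : z.SS ν ∧ (¬z.St ν →
      ∃ y : Q.Pt ℂ, (∀ ξ, y.mu ξ = 0) ∧ ev y p ≠ 0 ∧ Clo z y ∧ (Stab y).Infinite) := by
  have key : ∀ U, z.IsSub U → ((∀ i, ∀ u ∈ U i, (z.j i).mulVec u = 0) → 0 ≤ QData.pair ν U ∧
      (QData.pair ν U = 0 → (∃ i, U i ≠ ⊥) →
        ∃ y : Q.Pt ℂ, (∀ ξ, y.mu ξ = 0) ∧ ev y p ≠ 0 ∧ Clo z y ∧ (Stab y).Infinite)) ∧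
      ((∀ i a, (z.i i).mulVec a ∈ U i) → 0 ≤ QData.pair ν U - ∑ i, ν i * (Q.v i : ℤ) ∧
      (QData.pair ν U - ∑ i, ν i * (Q.v i : ℤ) = 0 → (∃ i, U i ≠ ⊤) →
        ∃ y : Q.Pt ℂ, (∀ ξ, y.mu ξ = 0) ∧ ev y p ≠ 0 ∧ Clo z y ∧ (Stab y).Infinite)) := by
    intro U hU
    obtain ⟨u, s, h1, h2, h3, h4, h5, h6⟩ := diag_form ν z U hU
    have a1 : ∀ ξ, (act u (star u) z).mu ξ = 0 := fun ξ => by rw [mu_act h1, hμ]
    have a2 : ev (act u (star u) z) p ≠ 0 := by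
      rw [hp _ _ h1 z hμ]
      exact mul_ne_zero (pow_ne_zero _ (chi_ne ν h1)) hz
    have a3 : ∑ c, ν c.1 * (s c - 1) = QData.pair ν U - ∑ i, ν i * (Q.v i : ℤ) := by
      simp only [mul_sub, sum_sub_distrib, h2]
      rw [Fintype.sum_sigma]
      simp [mul_comm]
    refine ⟨fun h => ?_, fun h => ?_⟩
    · have := torus hm hp a1 a2 (h5 h)
      rw [h2] at this
      exact ⟨this.1, fun a b => (this.2 a (h3 b)).imp fun y c =>
        ⟨c.1, c.2.1, c.2.2.1.of_act h1, c.2.2.2⟩⟩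
    · have := torus hm hp a1 a2 (h6 h)
      rw [a3] at this
      exact ⟨this.1, fun a b => (this.2 a (h4 b)).imp fun y c =>
        ⟨c.1, c.2.1, c.2.2.1.of_act h1, c.2.2.2⟩⟩
  refine ⟨fun U hU => ⟨fun h => (((key U hU).1) h).1, fun h => sub_nonneg.1 ((key U hU).2 h).1⟩,
    fun h => by_contra fun h0 => h fun U hU => ⟨fun a b => ?_, fun a b => ?_⟩⟩
  · exact lt_of_le_of_ne ((key U hU).1 a).1 fun e => h0 (((key U hU).1 a).2 e.symm b)
  · exact sub_pos.1 (lt_of_le_of_ne ((key U hU).2 a).1 fun e => h0 (((key U hU).2 a).2 e.symm b))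

variable {ν : I → ℤ} {z : Q.Pt ℂ}

theorem pss_iff (hμ : ∀ ξ, z.mu ξ = 0) : PSS ν z ↔ z.SS ν :=
  ⟨fun ⟨m, hm, p, hp, hz⟩ => (easy hm hp hμ hz).1, fun h =>
    let ⟨m, p, h1, h2, h3⟩ := exists_semi h
    ⟨m, h1, p, fun g h e y _ => h3 g h e y, h2⟩⟩

theorem stab_st (h : z.St ν) {g : End Q} (hg : g ∈ Stab z) : g = 1 :=
  let ⟨_, e, e'⟩ := hg
  ((stR_cast ν z).2 h).free e e'

theorem clo_st (hμ : ∀ ξ, z.mu ξ = 0) (h : z.St ν) {y : Q.Pt ℂ} (hy : PSS ν y) (hc : Clo z y) :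
    ∃ g h : End Q, g * h = 1 ∧ act g h z = y :=
  let ⟨m, hm, p, hp, h1⟩ := hy
  closed_orbit h hm (fun g h e => hp g h e z hμ) h1 hc

theorem stab_fin {g h : End Q} (e : g * h = 1) (H : (Stab z).Finite) :
    (Stab (act g h z)).Finite := by
  have e' := End.mul_eq_one_comm e
  refine (H.image fun a => g * a * h).subset fun a ⟨b, h1, h2⟩ => ⟨h * a * g, ⟨h * b * g, ?_, ?_⟩, ?_⟩
  · rw [mul_assoc, ← mul_assoc g, ← mul_assoc g, e, one_mul, mul_assoc, ← mul_assoc a, h1, one_mul,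
      e']
  · have := congrArg (act h g) h2
    rwa [act_act, act_act, act_act, e', act_one, ← mul_assoc h b] at this
  · simp only [← mul_assoc, e, one_mul]
    rw [mul_assoc, e, mul_one]

theorem chi_add (ν ν' : I → ℤ) {g h : End Q} (e : g * h = 1) :
    chi (ν + ν') g = chi ν g * chi ν' g := by
  rw [chi, chi, chi, ← prod_mul_distrib]
  exact prod_congr rfl fun i _ => zpow_add₀ (left_ne_zero_of_mul_eq_one (b := (h i).det) (by
    rw [← det_mul]
    exact (congrArg det (congrFun e i)).trans det_one)) _ _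

theorem chi_nsmul (ν : I → ℤ) (N : ℕ) (g : End Q) : chi (N • ν) g = chi ν g ^ N := by
  rw [chi, chi, ← prod_pow]
  exact prod_congr rfl fun i _ => by
    rw [Pi.smul_apply, nsmul_eq_mul, mul_comm, _root_.zpow_mul, zpow_natCast]

theorem pair_pert (ν : I → ℤ) (N : ℕ) (δ : ℤ) (d : I → ℕ) :
    ∑ i, (N • ν + fun _ => δ : I → ℤ) i * (d i : ℤ) = N * ∑ i, ν i * d i + δ * (∑ i, d i : ℕ) := by
  simp [add_mul, sum_add_distrib, mul_sum, mul_assoc]

theorem dim_le (U : ∀ i : I, Submodule ℂ (Fin (Q.v i) → ℂ)) :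
    ∑ i, finrank ℂ (U i) ≤ ∑ i, Q.v i ∧ ((∃ i, U i ≠ ⊥) → 0 < ∑ i, finrank ℂ (U i)) ∧
      ((∃ i, U i ≠ ⊤) → ∑ i, finrank ℂ (U i) < ∑ i, Q.v i) :=
  ⟨sum_le_sum fun i _ => finrank_le_v i _, fun ⟨i, h⟩ => sum_pos' (fun _ _ => Nat.zero_le _)
    ⟨i, mem_univ i, Nat.pos_of_ne_zero fun e => h (Submodule.finrank_eq_zero.1 e)⟩,
    fun ⟨i, h⟩ => sum_lt_sum (fun i _ => finrank_le_v i _) ⟨i, mem_univ i, by
      simpa using Submodule.finrank_lt h⟩⟩

theorem ss_pert (h : z.St ν) {δ : ℤ} (hδ : δ = 1 ∨ δ = -1) :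
    z.SS ((∑ i, Q.v i + 1) • ν + fun _ => δ) := fun U hU => by
  have h0 := (dim_le U).1
  rw [QData.pair, pair_pert, pair_pert]
  refine ⟨fun a => ?_, fun a => ?_⟩
  · by_cases b : ∃ i, U i ≠ ⊥
    · have h1 : 0 < ∑ i, ν i * (finrank ℂ (U i) : ℤ) := (h U hU).1 a b
      rcases hδ with rfl | rfl <;> push_cast at h0 ⊢ <;> zify at h0 <;> nlinarith [
        sum_nonneg fun i (_ : i ∈ univ) => Int.natCast_nonneg (finrank ℂ (U i))]
    · push Not at b
      have : ∀ i, finrank ℂ (U i) = 0 := fun i => by rw [b i]; simp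
      simp [this]
  · by_cases b : ∃ i, U i ≠ ⊤
    · have h1 : _ < ∑ i, ν i * (finrank ℂ (U i) : ℤ) := (h U hU).2 a b
      rcases hδ with rfl | rfl <;> push_cast at h0 ⊢ <;> zify at h0 <;> nlinarith [
        sum_nonneg fun i (_ : i ∈ univ) => Int.natCast_nonneg (finrank ℂ (U i))]
    · push Not at b
      have : ∀ i, finrank ℂ (U i) = Q.v i := fun i => by rw [b i]; simp
      simp [this]

theorem st_pert {N : ℕ} (h1 : z.SS (N • ν + fun _ => 1)) (h2 : z.SS (N • ν + fun _ => -1)) :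
    z.St ν := fun U hU => by
  have a1 := (h1 U hU).2
  have a2 := (h2 U hU).1
  rw [QData.pair, pair_pert] at a1 a2
  rw [pair_pert] at a1
  rw [QData.pair]
  refine ⟨fun a b => ?_, fun a b => ?_⟩
  · have := (dim_le U).2.1 b
    by_contra! c
    nlinarith [a2 a, Int.natCast_nonneg N, Int.natCast_pos.2 this]
  · have := (dim_le U).2.2 b
    by_contra! c
    nlinarith [a1 a, Int.natCast_nonneg N, Int.ofNat_lt.2 this]

/-- A stable point has a semi-invariant which vanishes at all points which are not stable. -/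
theorem exists_semi_st (h : z.St ν) : ∃ m, 0 < m ∧ ∃ p, SI ν m p ∧ ev z p ≠ 0 ∧
    ∀ y : Q.Pt ℂ, (∀ ξ, y.mu ξ = 0) → ev y p ≠ 0 → y.St ν := by
  obtain ⟨m, p, a1, a2, a3⟩ := exists_semi (ss_pert h (Or.inl rfl))
  obtain ⟨m', p', b1, b2, b3⟩ := exists_semi (ss_pert h (Or.inr rfl))
  refine ⟨(∑ i, Q.v i + 1 + (∑ i, Q.v i + 1)) * (m * m'), by positivity, p ^ m' * p' ^ m,
    fun g h e y _ => ?_, by simp [a2, b2], fun y hy H => ?_⟩
  · have : chi ν g ^ (∑ i, Q.v i + 1 + (∑ i, Q.v i + 1)) =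
        chi ((∑ i, Q.v i + 1) • ν + fun _ => 1) g * chi ((∑ i, Q.v i + 1) • ν + fun _ => -1) g := by
      rw [← chi_add _ _ e, ← chi_nsmul]
      congr 1
      funext i
      simp only [Pi.add_apply, Pi.smul_apply, add_smul]
      ring
    simp only [map_mul, map_pow, a3 g h e, b3 g h e]
    rw [pow_mul, this]
    ring
  · rw [map_mul, map_pow, map_pow] at H
    exact st_pert
      (easy a1 (fun g h e y _ => a3 g h e y) hy fun e => H (by simp [e, b1.ne'])).1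
      (easy b1 (fun g h e y _ => b3 g h e y) hy fun e => H (by simp [e, a1.ne'])).1

theorem pst_iff (hμ : ∀ ξ, z.mu ξ = 0) : ((Stab z).Finite ∧ ∃ m, 0 < m ∧ ∃ p, SI ν m p ∧
    ev z p ≠ 0 ∧ ∀ y y' : Q.Pt ℂ, (∀ ξ, y.mu ξ = 0) → (∀ ξ, y'.mu ξ = 0) → ev y p ≠ 0 →
      ev y' p ≠ 0 → Clo y y' → ∃ g h : End Q, g * h = 1 ∧ act g h y = y') ↔ z.St ν := by
  refine ⟨fun ⟨h2, m, hm, p, hp, hz, h3⟩ => by_contra fun h => ?_, fun h => ?_⟩
  · obtain ⟨y, a, b, c, d⟩ := (easy hm hp hμ hz).2 h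
    obtain ⟨g, h, e, rfl⟩ := h3 z y hμ a hz b c
    exact d (stab_fin e h2)
  · obtain ⟨m, hm, p, h1, h2, h3⟩ := exists_semi_st h
    exact ⟨(Set.finite_singleton 1).subset fun g hg => stab_st h hg, m, hm, p, h1, h2,
      fun y y' a _ b c => clo_st a (h3 y a b) ⟨m, hm, p, h1, c⟩⟩

theorem st_of_fin (H : ∀ y : Q.Pt ℂ, (∀ ξ, y.mu ξ = 0) → PSS ν y → (Stab y).Finite)
    (hμ : ∀ ξ, z.mu ξ = 0) (hz : PSS ν z) : z.St ν := by
  obtain ⟨m, hm, p, hp, hz⟩ := hz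
  by_contra h
  obtain ⟨y, a, b, c, d⟩ := (easy hm hp hμ hz).2 h
  exact d (H y a ⟨m, hm, p, hp, b⟩)

end Vale.Agent.P291G
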