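import Vale.Agent.P291G.Defs
import Vale.Agent.P291G.G4
import Vale.Agent.P291Z.KNB2

/-!
# King's theorem for the data of the statement
-/

set_option linter.all false

noncomputable section

namespace Vale.Agent.P291G

open Vale.Agent.P291.Hik Vale.Agent.P291Z Vale.Agent.P291Z.KN Matrix MvPolynomial
open Vale.Agent.P291Y (Dat)

attribute [local instance] P291Y.Qv.fV P291Y.Qv.fA P291Y.Dat.fF

variable {D : Dat}

/-- The coordinates of a point. -/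
def pp (z : D.Tp) : D.qv.toH.qd.Pt ℂ := Flav.pt (A := D.toH) z

theorem pp_inj {z y : D.Tp} (h : pp z = pp y) : z = y := Flav.pt_injective (A := D.toH) h

theorem pp_surj (y : D.qv.toH.qd.Pt ℂ) : ∃ z : D.Tp, pp z = y := ⟨_, Flav.pt_unpt (A := D.toH) y⟩

theorem inZ_iff (z : D.Tp) : D.InZ z ↔ ∀ ξ, (pp z).mu ξ = 0 :=
  forall_congr' fun ξ => Eq.congr_left (Flav.mu_pt (A := D.toH) z ξ).symm

theorem pp_mov {g : D.GH} (hg : D.InG g) (z : D.Tp) :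
    pp (D.mov g z) = act (Flav.ga _ _ g) (Flav.ga _ _ g⁻¹) (pp z) := by
  have h4 : Flav.fl D.qv.toH D.Fl g = 1 := _root_.funext fun b =>
    (congrArg GeneralLinearGroup.det (congrFun hg b)).trans (map_one _)
  have := pt_smul (A := D.toH) g z
  rw [h4, inv_one, map_one] at this
  exact this

theorem exists_G {u u' : End D.qv.toH.qd} (e : u * u' = 1) :
    ∃ g : D.GH, D.InG g ∧ Flav.ga _ _ g = u ∧ ∀ z, pp (D.mov g z) = act u u' (pp z) := by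
  have h : D.InG (mkH (Q := D.qv.toH) (Φ := D.Fl) e 1) := _root_.funext fun a => map_one _
  exact ⟨_, h, rfl, pp_mov h⟩

theorem ga_inj {g g' : D.GH} (hg : D.InG g) (hg' : D.InG g')
    (e : Flav.ga D.qv.toH D.Fl g = Flav.ga _ _ g') : g = g' :=
  _root_.funext fun j => by
    rcases j with i | a
    · exact Units.ext (congrFun e i)
    · exact (congrFun hg a).trans (congrFun hg' a).symm

theorem isPol_iff (f : D.Tp → ℂ) : D.IsPol f ↔ ∃ p, ∀ z, f z = ev (pp z) p := by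
  constructor
  · intro h
    induction h with
    | cst c => exact ⟨C c, fun z => (MvPolynomial.eval_C c).symm⟩
    | fst q =>
      refine ⟨∑ e, ∑ a, ∑ b, C (Flav.yy (A := D.toH) q e a b) * X (.inl (.inl ⟨e, b, a⟩)) +
        ∑ i, ∑ a, ∑ b, C (Flav.ii (A := D.toH) q i a b) * X (.inr (.inl ⟨i, b, a⟩)), fun z => ?_⟩
      refine (Flav.lf_apply (A := D.toH) q z.1).trans ?_
      simp only [ev, map_add, map_sum, map_mul, eval_C, eval_X]
      rfl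
    | snd y =>
      refine ⟨∑ e, ∑ a, ∑ b, X (.inl (.inr ⟨e, a, b⟩)) * C (y.1 e b a) +
        ∑ i, ∑ a, ∑ b, X (.inr (.inr ⟨i, a, b⟩)) * C (y.2 i b a), fun z => ?_⟩
      refine (Flav.lf_apply (A := D.toH) z.2 y).trans ?_
      simp only [ev, map_add, map_sum, map_mul, eval_C, eval_X]
      rfl
    | add f f' _ _ h h' =>
      obtain ⟨p, h⟩ := h
      obtain ⟨p', h'⟩ := h'
      exact ⟨p + p', fun z => by rw [map_add, ← h, ← h']⟩
    | mul f f' _ _ h h' =>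
      obtain ⟨p, h⟩ := h
      obtain ⟨p', h'⟩ := h'
      exact ⟨p * p', fun z => by rw [map_mul, ← h, ← h']⟩
  · rintro ⟨p, h⟩
    obtain rfl : f = fun z => ev (pp z) p := _root_.funext h
    clear h
    induction p using MvPolynomial.induction_on with
    | C c => simpa only [ev, eval_C] using Dat.IsPol.cst (D := D) c
    | add p q hp hq => simpa only [map_add] using Dat.IsPol.add _ _ hp hq
    | mul_X p ε hp =>
      simp only [map_mul]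
      refine Dat.IsPol.mul _ _ hp ?_
      simp only [ev, eval_X]
      rcases ε with (a | a) | (a | a)
      · exact Dat.IsPol.fst (D := D) (Flav.ofLf D.toH
          ⟨⟨fun s => s.1 a.1 a.2.1 a.2.2, fun _ _ => rfl⟩, fun _ _ => rfl⟩)
      · exact Dat.IsPol.snd (D := D) _
      · exact Dat.IsPol.fst (D := D) (Flav.ofLf D.toH
          ⟨⟨fun s => s.2 a.1 a.2.1 a.2.2, fun _ _ => rfl⟩, fun _ _ => rfl⟩)
      · exact Dat.IsPol.snd (D := D) _

theorem chr_eq (g : D.GH) : D.chr g = chi (Q := D.qv.toH.qd) D.nu (Flav.ga _ _ g) := rfl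

theorem si_iff (m : ℕ) (f : D.Tp → ℂ) :
    D.SemiInv m f ↔ ∃ p, SI D.nu m p ∧ f = fun z => ev (pp z) p := by
  refine ⟨fun ⟨h1, h2⟩ => ?_, ?_⟩
  · obtain ⟨p, hp⟩ := (isPol_iff f).1 h1
    refine ⟨p, fun u u' e y hy => ?_, _root_.funext hp⟩
    obtain ⟨y, rfl⟩ := pp_surj y
    obtain ⟨g, a, rfl, b⟩ := exists_G e
    rw [← b, ← hp, ← hp, h2 g y a ((inZ_iff y).2 hy), chr_eq]
  · rintro ⟨p, h1, rfl⟩
    exact ⟨(isPol_iff _).2 ⟨p, fun _ => rfl⟩, fun g y a b =>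
      (congrArg (ev · p) (pp_mov a y)).trans (h1 _ _ (ga_inv _) _ ((inZ_iff y).1 b))⟩

theorem gss_iff (z : D.Tp) : D.GSS z ↔ D.InZ z ∧ PSS D.nu (pp z) := by
  refine and_congr_right fun _ => ⟨fun ⟨m, f, hm, h1, h3⟩ => ?_, fun ⟨m, hm, p, h1, h2⟩ =>
    ⟨m, _, hm, (si_iff _ _).2 ⟨p, h1, rfl⟩, h2⟩⟩
  obtain ⟨p, h2, rfl⟩ := (si_iff _ _).1 h1
  exact ⟨m, hm, p, h2, h3⟩

theorem clos_iff (z y : D.Tp) : D.Clos z y ↔ Clo (pp z) (pp y) := by
  refine ⟨fun h p hp => h (fun z => ev (pp z) p) ((isPol_iff _).2 ⟨p, fun _ => rfl⟩) fun g a => ?_,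
    fun h f h1 h2 => ?_⟩
  · exact (congrArg (ev · p) (pp_mov a z)).trans (hp _ _ (ga_inv _))
  · obtain ⟨p, hp⟩ := (isPol_iff f).1 h1
    rw [hp]
    refine h p fun u u' e => ?_
    obtain ⟨g, a, -, b⟩ := exists_G e
    rw [← b, ← hp, h2 g a]

theorem orb_iff (z y : D.Tp) : (∃ g, D.InG g ∧ D.mov g z = y) ↔
    ∃ g h : End D.qv.toH.qd, g * h = 1 ∧ act g h (pp z) = pp y :=
  ⟨fun ⟨g, a, b⟩ => ⟨_, _, ga_inv (Q := D.qv.toH) (Φ := D.Fl) g, (pp_mov a z).symm.trans (congrArg pp b)⟩, fun ⟨u, u', e, e'⟩ =>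
    let ⟨g, a, _, b⟩ := exists_G e
    ⟨g, a, pp_inj ((b z).trans e')⟩⟩

theorem stab_eq (z : D.Tp) : Stab (pp z) =
    Flav.ga D.qv.toH D.Fl '' {g : D.GH | D.InG g ∧ D.mov g z = z} :=
  Set.ext fun u => ⟨fun ⟨u', e, e'⟩ =>
    let ⟨g, a, c, b⟩ := exists_G e
    ⟨g, ⟨a, pp_inj ((b z).trans e')⟩, c⟩, fun ⟨g, ⟨a, b⟩, c⟩ =>
    c ▸ ⟨_, ga_inv g, (pp_mov a z).symm.trans (congrArg pp b)⟩⟩

theorem fin_iff (z : D.Tp) : {g | D.InG g ∧ D.mov g z = z}.Finite ↔ (Stab (pp z)).Finite := by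
  rw [stab_eq]
  exact (Set.finite_image_iff fun g a g' b => ga_inj a.1 b.1).symm

theorem king_ss (z : D.Tp) : D.GSS z ↔ D.InZ z ∧ P291Y.Qv.SemiSt D.nu z.1 (D.ev z.2) :=
  (gss_iff z).trans (and_congr_right fun h =>
    (pss_iff ((inZ_iff z).1 h)).trans (Flav.ss_pt (A := D.toH) D.nu z))

theorem king_st (z : D.Tp) : D.GSt z ↔ D.InZ z ∧ P291Y.Qv.St D.nu z.1 (D.ev z.2) := by
  rw [Dat.GSt, fin_iff]
  refine and_congr_right fun h => Iff.trans ?_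
    ((pst_iff ((inZ_iff z).1 h)).trans (Flav.st_pt (A := D.toH) D.nu z))
  refine and_congr_right fun _ => ⟨fun ⟨m, f, hm, h1, h2, H⟩ => ?_, fun ⟨m, hm, p, h1, h2, H⟩ =>
    ⟨m, _, hm, (si_iff _ _).2 ⟨p, h1, rfl⟩, h2, fun y y' a b c d e => (orb_iff y y').2
      (H _ _ ((inZ_iff y).1 a) ((inZ_iff y').1 b) c d ((clos_iff y y').1 e))⟩⟩
  obtain ⟨p, h3, rfl⟩ := (si_iff _ _).1 h1
  refine ⟨m, hm, p, h3, h2, fun y y' a b c d e => ?_⟩
  obtain ⟨y, rfl⟩ := pp_surj y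
  obtain ⟨y', rfl⟩ := pp_surj y'
  exact (orb_iff y y').1 (H y y' ((inZ_iff y).2 a) ((inZ_iff y').2 b) c d ((clos_iff y y').2 e))

theorem gst_gss {z : D.Tp} (h : D.GSt z) : D.GSS z :=
  let ⟨a, _, m, f, b, c, d, _⟩ := h
  ⟨a, m, f, b, c, d⟩

theorem free_st : D.Free D.GSt := fun z g h a b => by
  have h1 : Flav.ga D.qv.toH D.Fl g ∈ Stab (pp z) := (stab_eq z).symm ▸ ⟨g, ⟨a, b⟩, rfl⟩
  exact ga_inj (g' := 1) a rfl
    (stab_st ((Flav.st_pt (A := D.toH) D.nu z).2 ((king_st z).1 h).2) h1)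

theorem greg_iff : D.GReg ↔ D.Free D.GSS := by
  refine ⟨fun h z g a => h.2 z g ((h.1 z).1 a), fun h => ⟨fun z => ⟨fun a => ?_, gst_gss⟩,
    free_st⟩⟩
  refine (king_st z).2 ⟨a.1, (Flav.st_pt (A := D.toH) D.nu z).1 (st_of_fin (fun y b c => ?_)
    ((inZ_iff z).1 a.1) ((gss_iff z).1 a).2)⟩
  obtain ⟨y, rfl⟩ := pp_surj y
  exact (fin_iff y).1 ((Set.finite_singleton _).subset fun g d =>
    h y g ((gss_iff y).2 ⟨(inZ_iff y).2 b, c⟩) d.1 d.2)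

theorem regular_of (h : D.GReg) : D.Regular := fun x p hz =>
  ⟨⟨fun a => ((king_st (x, p)).1 ((h.1 _).1 ((king_ss (x, p)).2 ⟨hz, a⟩))).2,
    fun a => ((king_ss (x, p)).1 (gst_gss ((king_st (x, p)).2 ⟨hz, a⟩))).2⟩, fun a g b c d =>
    h.2 (x, p) g ((king_st (x, p)).2 ⟨hz, a⟩) b (Prod.ext c d)⟩

end Vale.Agent.P291G
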