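import Vale.Agent.P291Y.L3
import Vale.Agent.P291Y.L4

/-!
# The flavour torus acts on the space of `G`-orbits of an invariant subset
-/

set_option linter.all false

noncomputable section

namespace Vale.Agent.P291Y.Dat

attribute [local instance] Qv.fV Qv.fA Dat.fF

theorem h7 (D : Dat) (f g : D.GH) (h : g ∈ (P291Z.sndG D.qv.dv fun _ : D.Fl => 1).ker) :
    ∃ g' : D.GH, g' ∈ (P291Z.sndG D.qv.dv fun _ : D.Fl => 1).ker ∧
      ∀ b : D.toH.NN × D.toH.ND, g' • f • b = f • g • b :=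
  ⟨f * g * f⁻¹, MonoidHom.normal_ker _ |>.conj_mem _ h _,
    fun b => by rw [smul_smul, inv_mul_cancel_right, mul_smul]⟩

theorem h8 (D : Dat) (S : (prod D.NN.gs D.ND).Pt → Prop) (h : Inv _ S) (f : GG D.nF)
    (a b : (sub _ S h).Pt) (H : Same (res (Subtype.val (p := D.InG)) (sub _ S h)) a b) :
    Same (res (Subtype.val (p := D.InG)) (sub _ S h)) ((sub _ S h).act (ginr _ _ f) a)
      ((sub _ S h).act (ginr _ _ f) b) := by
  obtain ⟨g, rfl⟩ := H
  obtain ⟨g', h1, h2⟩ := D.h7 (ginr _ _ f) g.1 g.2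
  exact ⟨⟨g', h1⟩, Subtype.ext (h2 _)⟩

end Vale.Agent.P291Y.Dat
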